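import Vale.Agent.P011.U2.Good
import Vale.Agent.P011.Two2.Final

/-!
The special unitary group of an anisotropic hermitian form of rank at least two over a
noncommutative division algebra is the commutator subgroup of the unitary group.
-/

open Matrix Module
open scoped ComplexOrder commutatorElement

set_option linter.unusedSectionVars false

namespace Vale.Agent.P011.U2

open Vale.Agent.P011S Vale.Agent.P011.RP Vale.Agent.P011.Two.Hi Vale.Agent.P011.Two
open Vale.Agent.P011.Three Vale.Agent.P011.T2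

section norm

variable {K D : Type} [Field K] [NumberField K] [StarRing K] [DivisionRing D] [StarRing D]
  [Algebra K D] [StarModule K D] [FiniteDimensional K D] [Algebra.IsCentral K D] {n m : ℕ}
  {F : Type} [Field F] [Algebra K F] (f : D →ₐ[K] Matrix (Fin n) (Fin n) F)
  {H : Matrix (Fin m) (Fin m) D} {hH : IsAnisotropicForm H}

include f in
/-- Lemma B for all characters. -/
theorem bOn (hK : ∃ k : K, star k ≠ k) (hn : 0 < n) (hdeg : finrank K D = n ^ 2)
    {ι : Type} [Fintype ι] {R : ι → RData K D n} (hc : Complete R) (hd : RP.Dense R)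
    (hA : ∀ i, (R i).A.PosDef) (hm : 2 ≤ m) (hnm : 2 ≤ n ∨ 3 ≤ m)
    (hH1 : ∀ i, PosDim (R i) H n) {A : Type} [CommGroup A] (χ : (rowA H hH).isom →* A) :
    BOn R (psi (rowA H hH) χ) := by
  have hchar : CharZero D := charZero_of_injective_algebraMap (algebraMap K D).injective
  intro z z' r hz hz' hzr hzr'
  by_cases hm3 : 3 ≤ m
  · exact lemB_rank_three hK hn hdeg hc hd hA hm3 hH hH1 χ hz.2 hz'.2 hzr.2 hzr'.2
  have hn2 : 2 ≤ n := hnm.resolve_right hm3
  have hm2 : m = 2 := by omega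
  subst hm2
  rcases isEmpty_or_nonempty ι with hι | hι
  · exact Two2.lemB_empty hK hn f
      (fun z z₂ r h1 h2 h3 h4 h5 h6 h7 => Two2.thmSStmt K D hK n hn2 hdeg ι R hc hd hA H hH hH1
        A χ z z₂ r ⟨h1, h2, h3, h4, h5, h6⟩ (fun i => (hι.false i).elim)
        (fun i => (hι.false i).elim) h7) hz.1 hz'.1 hzr.1 hzr'.1
  · exact Two2.lemB2_of_nd hK hn hdeg hd
      (fun z z₂ r h1 h2 h3 h4 => Two2.thmSStmt K D hK n hn2 hdeg ι R hc hd hA H hH hH1 A χ z z₂ r
        h1 h2 h3 h4) hz.2 hz'.2 hzr.2 hzr'.2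

/-- Characters of the isometry group are trivial on the isometries of reduced norm one. -/
theorem char_eq_one (hK : ∃ k : K, star k ≠ k) (hn : 0 < n) (hdeg : finrank K D = n ^ 2)
    {ι : Type} [Fintype ι] {R : ι → RData K D n} (hc : Complete R) (hd : RP.Dense R)
    (hA : ∀ i, (R i).A.PosDef) (hm : 2 ≤ m) (hnm : 2 ≤ n ∨ 3 ≤ m)
    (hH1 : ∀ i, PosDim (R i) H n) {A : Type} [CommGroup A] (χ : (rowA H hH).isom →* A)
    {g : (Fin m → D) ≃ₗ[D] (Fin m → D)} (hg : g ∈ (rowA H hH).isom) (hg1 : nu f g = 1) :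
    χ ⟨g, hg⟩ = 1 := by
  have hchar : CharZero D := charZero_of_injective_algebraMap (algebraMap K D).injective
  have hfin : FiniteDimensional ℚ D := FiniteDimensional.trans ℚ K D
  obtain ⟨e, he⟩ := exists_unit hK hn hdeg hc hd hm hA hH hH1
  have hB := bOn f hK hn hdeg hc hd hA hm hnm hH1 χ
  have hD : SymOn R (psi (rowA H hH) χ) :=
    sym_of_B hK hA χ (fun _ ha ha0 hap => exists_len hn hdeg
      (Vale.Agent.P011.Even.hasR2 hK hn hdeg) hc hd hm hH hH1 ha ha0 hap) hB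
  obtain ⟨F0, hmul, hsym, hF⟩ := exists_F hK hn hd hA χ he hB hD
  obtain ⟨Y, hY0, hY, hY1⟩ := exists_skew_value hK hA χ he hD hmul hF
  obtain ⟨Z, hZ0, hZ1, hZ2⟩ := exists_value f hK hn hdeg hc hd hA hm hH1 χ hmul hF hY0 hY hY1 hg
  rw [hg1, one_mul] at hZ1
  rw [hZ2]
  exact Vale.Agent.P011.W.suk_all (K := K) F0 hmul hsym hdeg hK f hZ0 hZ1

/-- The special unitary group of a normalised form. -/
theorem su_le_norm (hK : ∃ k : K, star k ≠ k) (hn : 0 < n) (hdeg : finrank K D = n ^ 2)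
    {ι : Type} [Fintype ι] {R : ι → RData K D n} (hc : Complete R) (hd : RP.Dense R)
    (hA : ∀ i, (R i).A.PosDef) (hm : 2 ≤ m) (hnm : 2 ≤ n ∨ 3 ≤ m) (hH : IsAnisotropicForm H)
    (hH1 : ∀ i, PosDim (R i) H n) : SU f H ≤ ⁅UH H, UH H⁆ := by
  intro g hg
  have hgi : rp g ∈ (rowA H hH).isom := (rp_mem hH).mpr hg.1
  have h1 : nu f (rp g) = 1 := by
    unfold nu
    rw [rm_rp, redNorm_conj f hH hg.1]
    exact hg.2
  have h2 := char_eq_one f hK hn hdeg hc hd hA hm hnm hH1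
    (Abelianization.of (G := (rowA H hH).isom)) hgi h1
  have h3 : (⟨rp g, hgi⟩ : (rowA H hH).isom) ∈ commutator (rowA H hH).isom := by
    rw [← Abelianization.ker_of, MonoidHom.mem_ker]
    exact h2
  have h4 : rp g ∈ ⁅(rowA H hH).isom, (rowA H hH).isom⁆ := by
    rw [← Subgroup.map_subtype_commutator]
    exact ⟨_, h3, rfl⟩
  have h5 : (UH H).map rp = (rowA H hH).isom := by
    ext x
    constructor
    · rintro ⟨a, ha, rfl⟩
      exact (rp_mem hH).mpr ha
    · intro hx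
      obtain ⟨a, rfl⟩ := rp_surj x
      exact ⟨a, (rp_mem hH).mp hx, rfl⟩
  rw [← h5, ← Subgroup.map_commutator] at h4
  obtain ⟨a, ha, hag⟩ := h4
  rwa [← rp_injective hag]

end norm

section main

variable {K D : Type} [Field K] [NumberField K] [StarRing K] [DivisionRing D] [StarRing D]
  [Algebra K D] [StarModule K D] [FiniteDimensional K D] [Algebra.IsCentral K D] {n m : ℕ}
  {F : Type} [Field F] [Algebra K F] (f : D →ₐ[K] Matrix (Fin n) (Fin n) F)

/-- Commutators of isometries have reduced norm one. -/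
theorem comm_le_su (H : Matrix (Fin m) (Fin m) D) : ⁅UH H, UH H⁆ ≤ SU f H := by
  rw [Subgroup.commutator_le]
  intro a ha b hb
  refine ⟨?_, ?_⟩
  · exact (UH H).mul_mem ((UH H).mul_mem ((UH H).mul_mem ha hb) ((UH H).inv_mem ha))
      ((UH H).inv_mem hb)
  · obtain ⟨φ, hφ⟩ : ∃ φ, φ = (redNorm f (Fin m)).comp
        (Units.coeHom (Matrix (Fin m) (Fin m) D)) := ⟨_, rfl⟩
    have h1 : φ a * φ a⁻¹ = 1 := by rw [← map_mul, mul_inv_cancel, map_one]
    have h2 : φ b * φ b⁻¹ = 1 := by rw [← map_mul, mul_inv_cancel, map_one]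
    have h3 : φ ⁅a, b⁆ = 1 := by
      rw [commutatorElement_def, map_mul, map_mul, map_mul]
      linear_combination (φ b * φ b⁻¹) * h1 + h2
    rw [hφ] at h3
    exact h3

theorem comm_congr {X : Type} [Group X] {U U' S S' : Subgroup X} (hU : U' = U) (hS : S' = S)
    (h : S' ≤ ⁅U', U'⁆) : S ≤ ⁅U, U⁆ := by
  subst hU
  subst hS
  exact h

/-- **The special unitary group is the commutator subgroup of the unitary group**, for
anisotropic forms of rank at least two over a noncommutative division algebra. -/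
theorem su_eq_comm (hK : ∃ k : K, star k ≠ k) (hn : 2 ≤ n) (hdeg : finrank K D = n ^ 2)
    (hm : 2 ≤ m) (H : Matrix (Fin m) (Fin m) D) (hH : IsAnisotropicForm H) :
    SU f H = ⁅UH H, UH H⁆ := by
  refine le_antisymm ?_ (comm_le_su f H)
  classical
  have hn0 : 0 < n := by omega
  have hchar : CharZero D := charZero_of_injective_algebraMap (algebraMap K D).injective
  obtain ⟨ι, _, R, hc, hd⟩ := exists_family (D := D) hK hn0 hdeg
  have hHu : IsUnit H := isUnit_of_anis hH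
  obtain ⟨ε, u, hu⟩ := exists_plane (q := 1) R hd (by omega) hH.1 hHu
  obtain ⟨a, ha, ha0, haP⟩ : ∃ a : D, star a = a ∧ a ≠ 0 ∧
      ∀ i, ((((ε i : ℤˣ) : ℤ) : ℂ) • ((R i).f a * (R i).A)).PosDef := by
    rcases isEmpty_or_nonempty ι with hι | ⟨⟨i0⟩⟩
    · exact ⟨1, star_one D, one_ne_zero, fun i => (hι.false i).elim⟩
    · obtain ⟨a, ha, haP⟩ := exists_definite R hd ε
      refine ⟨a, ha, ?_, haP⟩
      rintro rfl
      have h1 := (haP i0).diag_pos (i := ⟨0, hn0⟩)
      rw [map_zero, zero_mul, smul_zero, Matrix.zero_apply] at h1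
      exact lt_irrefl _ h1
  refine comm_congr (UH_twist a ha0 ha H) (SU_twist a ha0 ha f H) ?_
  refine @su_le_norm K D _ _ _ _ (twist a ha0 ha) _ (twist_module a ha0 ha) _ _ n m F _ _ f
    (Vale.Agent.P011.T2.tw a H) hK hn0 hdeg ι _
    (fun i => (R i).tw a ha0 ha (ε i)) hc hd haP hm (Or.inl hn) (anis_twist a ha0 ha hH)
    (fun i => ?_)
  obtain ⟨u', hu'⟩ : ∃ u' : Fin m → D, u' = fun b => u 0 b * a⁻¹ := ⟨_, rfl⟩
  have h1 := @U1_gram K D _ _ _ (twist a ha0 ha) _ n m (twist_module a ha0 ha) _ _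
    ((R i).tw a ha0 ha (ε i)) (Vale.Agent.P011.T2.tw a H) u' u'
  refine ⟨@U1 K D _ _ _ (twist a ha0 ha) _ n m ((R i).tw a ha0 ha (ε i)) u', ?_⟩
  rw [h1, hu', rowH_tw]
  have h2 := hu i (fun _ => 1) (fun h => one_ne_zero (congrFun h 0))
  have e1 : (fun b => ∑ c : Fin 1, (1 : D) * u c b) = u 0 := by
    funext b
    simp
  rw [e1] at h2
  change ((R i).f (rowH H (u 0) (u 0) * a⁻¹) *
    ((((ε i : ℤˣ) : ℤ) : ℂ) • ((R i).f a * (R i).A))).PosDef
  rw [mul_smul_comm, ← mul_assoc, ← map_mul, mul_assoc, inv_mul_cancel₀ ha0, mul_one]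
  exact h2

/-- A subgroup which contains the commutators of isometries is the whole group. -/
theorem top_of_comm (hK : ∃ k : K, star k ≠ k) (hn : 2 ≤ n) (hdeg : finrank K D = n ^ 2)
    (hm : 2 ≤ m) (H : Matrix (Fin m) (Fin m) D) (hH : IsAnisotropicForm H)
    (N : Subgroup (SU f H)) (hN : ContainsCommutators f H N) : N = ⊤ := by
  rw [eq_top_iff]
  intro g _
  have h1 : (g : (Matrix (Fin m) (Fin m) D)ˣ) ∈ ⁅UH H, UH H⁆ := by
    rw [← su_eq_comm f hK hn hdeg hm H hH]
    exact g.2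
  have h2 : ⁅UH H, UH H⁆ ≤ N.map (SU f H).subtype := by
    rw [Subgroup.commutator_le]
    intro a ha b hb
    obtain ⟨x, hx, hxab⟩ := hN a ha b hb
    exact ⟨x, hx, hxab⟩
  obtain ⟨x, hx, hxg⟩ := h2 h1
  have h3 : x = g := Subtype.ext hxg
  rwa [← h3]

end main

end Vale.Agent.P011.U2
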