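import Vale.Agent.P011.U2.NearRoot
import Vale.Agent.P011.RP.Choice

/-!
The unitary group of a hermitian form of rank one is generated by its elements which are close to
the identity at all real places.
-/

open Matrix Filter Topology

set_option linter.unusedSectionVars false

namespace Vale.Agent.P011.U2

open Vale.Agent.P011.RP Vale.Agent.P011.U2.Nr

variable {n : ℕ}

/-- The skew part with respect to a hermitian form. -/
noncomputable def skw (B Y : Matrix (Fin n) (Fin n) ℂ) : Matrix (Fin n) (Fin n) ℂ :=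
  (2 : ℂ)⁻¹ • (Y - B * Yᴴ * B⁻¹)

/-- The Cayley transform of the skew part. -/
noncomputable def cay (B Y : Matrix (Fin n) (Fin n) ℂ) : Matrix (Fin n) (Fin n) ℂ :=
  (1 + skw B Y) * (1 - skw B Y)⁻¹

theorem inv_cont {M : Matrix (Fin n) (Fin n) ℂ} (hM : IsUnit M) :
    ContinuousAt (fun Y : Matrix (Fin n) (Fin n) ℂ => Y⁻¹) M := by
  have h1 : ContinuousAt (fun Y : Matrix (Fin n) (Fin n) ℂ => Y.det) M :=
    (continuous_id.matrix_det).continuousAt
  have h2 : ContinuousAt (fun Y : Matrix (Fin n) (Fin n) ℂ => Y.adjugate) M :=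
    (continuous_id.matrix_adjugate).continuousAt
  have hdet : M.det ≠ 0 := ((Matrix.isUnit_iff_isUnit_det M).mp hM).ne_zero
  have h3 := (h1.inv₀ hdet).smul h2
  refine h3.congr ?_
  filter_upwards with Y
  rw [Matrix.inv_def, Ring.inverse_eq_inv']
  rfl

theorem skw_cont (B : Matrix (Fin n) (Fin n) ℂ) : Continuous (skw B) := by
  unfold skw
  have h1 : Continuous fun Y : Matrix (Fin n) (Fin n) ℂ => Yᴴ := continuous_id.matrix_conjTranspose
  have h2 : Continuous fun Y : Matrix (Fin n) (Fin n) ℂ => Y - B * Yᴴ * B⁻¹ :=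
    continuous_id.sub ((continuous_const.mul h1).mul continuous_const)
  exact h2.const_smul ((2 : ℂ)⁻¹)

theorem cay_cont (B : Matrix (Fin n) (Fin n) ℂ) {X : Matrix (Fin n) (Fin n) ℂ}
    (h : IsUnit (1 - skw B X)) : ContinuousAt (cay B) X := by
  unfold cay
  have h1 : Continuous fun Y : Matrix (Fin n) (Fin n) ℂ => 1 + skw B Y :=
    continuous_const.add (skw_cont B)
  have h2 : Continuous fun Y : Matrix (Fin n) (Fin n) ℂ => 1 - skw B Y :=
    continuous_const.sub (skw_cont B)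
  have h3 : ContinuousAt (fun Y : Matrix (Fin n) (Fin n) ℂ => (1 - skw B Y)⁻¹) X :=
    ContinuousAt.comp (f := fun Y : Matrix (Fin n) (Fin n) ℂ => 1 - skw B Y)
      (g := fun Y : Matrix (Fin n) (Fin n) ℂ => Y⁻¹) (inv_cont h) h2.continuousAt
  exact h1.continuousAt.mul h3

/-- An isometry without eigenvalue `-1` is a Cayley transform. -/
theorem exists_cay {B Z : Matrix (Fin n) (Fin n) ℂ} (hB : IsUnit B) (hZ : Z * B * Zᴴ = B)
    (hZ1 : IsUnit (Z + 1)) : ∃ X, IsUnit (1 - skw B X) ∧ cay B X = Z := by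
  obtain ⟨W, hW⟩ := hZ1
  obtain ⟨V, hV⟩ : ∃ V, V = (↑W⁻¹ : Matrix (Fin n) (Fin n) ℂ) := ⟨_, rfl⟩
  have hWV : (Z + 1) * V = 1 := by rw [hV, ← hW]; exact W.mul_inv
  have hVW : V * (Z + 1) = 1 := by rw [hV, ← hW]; exact W.inv_mul
  obtain ⟨X, hX⟩ : ∃ X, X = (Z - 1) * V := ⟨_, rfl⟩
  have hXV : X = V * (Z - 1) := by
    have e1 : (Z + 1) * (Z - 1) = (Z - 1) * (Z + 1) := by noncomm_ring
    calc X = (V * (Z + 1)) * (Z - 1) * V := by rw [hX, hVW, one_mul]
      _ = V * ((Z + 1) * (Z - 1)) * V := by simp only [mul_assoc]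
      _ = V * (Z - 1) * ((Z + 1) * V) := by rw [e1]; simp only [mul_assoc]
      _ = _ := by rw [hWV, mul_one]
  have hZ1' : (Z + 1) * B * (Z - 1)ᴴ + (Z - 1) * B * (Z + 1)ᴴ = 0 := by
    rw [Matrix.conjTranspose_sub, Matrix.conjTranspose_add, Matrix.conjTranspose_one]
    have e1 : (Z + 1) * B * (Zᴴ - 1) + (Z - 1) * B * (Zᴴ + 1) =
        (Z * B * Zᴴ - B) + (Z * B * Zᴴ - B) := by noncomm_ring
    rw [e1, hZ, sub_self, add_zero]
  have hWV' : Vᴴ * (Z + 1)ᴴ = 1 := by
    rw [← Matrix.conjTranspose_mul, hWV, Matrix.conjTranspose_one]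
  have hWV'' : (Z + 1)ᴴ * Vᴴ = 1 := by
    rw [← Matrix.conjTranspose_mul, hVW, Matrix.conjTranspose_one]
  have hskew : X * B + B * Xᴴ = 0 := by
    have e1 : X * B + B * Xᴴ = V * ((Z + 1) * B * (Z - 1)ᴴ + (Z - 1) * B * (Z + 1)ᴴ) * Vᴴ := by
      have e2 : Xᴴ = (Z - 1)ᴴ * Vᴴ := by rw [hXV, Matrix.conjTranspose_mul]
      rw [e2, mul_add, add_mul]
      have e3 : V * ((Z + 1) * B * (Z - 1)ᴴ) * Vᴴ = B * ((Z - 1)ᴴ * Vᴴ) := by
        calc V * ((Z + 1) * B * (Z - 1)ᴴ) * Vᴴ = (V * (Z + 1)) * B * ((Z - 1)ᴴ * Vᴴ) := by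
              simp only [mul_assoc]
          _ = _ := by rw [hVW, one_mul]
      have e4 : V * ((Z - 1) * B * (Z + 1)ᴴ) * Vᴴ = X * B := by
        calc V * ((Z - 1) * B * (Z + 1)ᴴ) * Vᴴ = (V * (Z - 1)) * B * ((Z + 1)ᴴ * Vᴴ) := by
              simp only [mul_assoc]
          _ = _ := by rw [hWV'', mul_one, ← hXV]
      rw [e3, e4, add_comm]
    rw [e1, hZ1', mul_zero, zero_mul]
  have hsk : skw B X = X := by
    obtain ⟨U, hU⟩ := hB
    have hUi : B * B⁻¹ = 1 := by
      rw [Matrix.mul_nonsing_inv]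
      rw [← Matrix.isUnit_iff_isUnit_det, ← hU]
      exact U.isUnit
    have e1 : B * Xᴴ * B⁻¹ = -X := by
      rw [← neg_eq_of_add_eq_zero_right hskew, neg_mul, mul_assoc, hUi, mul_one]
    unfold skw
    rw [e1, sub_neg_eq_add, ← two_smul ℂ X, smul_smul, inv_mul_cancel₀ two_ne_zero, one_smul]
  have h1 : (1 - X) = (2 : ℂ) • V := by
    have e1 : (1 - X) = ((Z + 1) - (Z - 1)) * V := by rw [sub_mul, hWV, hX]
    rw [e1]
    have e2 : (Z + 1) - (Z - 1) = (2 : ℂ) • (1 : Matrix (Fin n) (Fin n) ℂ) := by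
      rw [two_smul]; abel
    rw [e2, smul_mul_assoc, one_mul]
  have h2 : (1 + X) = (2 : ℂ) • (Z * V) := by
    have e1 : (1 + X) = ((Z + 1) + (Z - 1)) * V := by rw [add_mul, hWV, hX]
    rw [e1]
    have e2 : (Z + 1) + (Z - 1) = (2 : ℂ) • Z := by rw [two_smul]; abel
    rw [e2, smul_mul_assoc]
  have h3 : (1 - X) * ((2 : ℂ)⁻¹ • (Z + 1)) = 1 := by
    rw [h1, smul_mul_smul_comm, mul_inv_cancel₀ two_ne_zero, one_smul, hVW]
  have h4 : (1 - X)⁻¹ = (2 : ℂ)⁻¹ • (Z + 1) := Matrix.inv_eq_right_inv h3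
  refine ⟨X, ?_, ?_⟩
  · rw [hsk]
    exact IsUnit.of_mul_eq_one _ h3
  · unfold cay
    rw [hsk, h4, h2, smul_mul_smul_comm, mul_inv_cancel₀ two_ne_zero, one_smul, mul_assoc, hVW,
      mul_one]

section

variable {K D : Type} [Field K] [StarRing K] [DivisionRing D] [StarRing D] [Algebra K D]
  {ι : Type} [Fintype ι] {R : ι → RData K D n}

/-- Density, in topological form. -/
theorem dense_mem (hd : RP.Dense R) {X : ι → Matrix (Fin n) (Fin n) ℂ}
    {Q : (ι → Matrix (Fin n) (Fin n) ℂ) → Prop} (hQ : ∀ᶠ Y in 𝓝 X, Q Y) :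
    ∃ x : D, Q fun i => (R i).f x := by
  have hQ' : ∀ᶠ Y in 𝓝 (fun i a b => X i a b : ι → Fin n → Fin n → ℂ),
      Q (fun i => Matrix.of (Y i)) := hQ
  obtain ⟨ε, hε, h⟩ := Metric.eventually_nhds_iff.mp hQ'
  obtain ⟨x, hx⟩ := hd X ε hε
  refine ⟨x, ?_⟩
  refine h (y := fun i a b => (R i).f x a b) ?_
  rw [dist_pi_lt_iff hε]
  intro i
  rw [dist_pi_lt_iff hε]
  intro a
  rw [dist_pi_lt_iff hε]
  intro b
  rw [dist_eq_norm]
  exact hx i a b

/-- The complex matrix of a rank one hermitian form. -/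
theorem isom_of {R : RData K D n} {c t : D} (ht : t * c * star t = c) :
    R.f t * (R.f c * R.A) * (R.f t)ᴴ = R.f c * R.A := by
  have h1 := congrArg R.f ht
  rw [map_mul, map_mul] at h1
  calc R.f t * (R.f c * R.A) * (R.f t)ᴴ = R.f t * R.f c * (R.A * (R.f t)ᴴ) := by
        simp only [mul_assoc]
    _ = (R.f t * R.f c * R.f (star t)) * R.A := by rw [← R.star_f]; simp only [mul_assoc]
    _ = _ := by rw [h1]

variable [CharZero D]

/-- **Density of the unitary group of a rank one form**, near isometries without eigenvalue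
`-1`. -/
theorem cay_dense [Nonempty ι] (hn : 0 < n) (hd : RP.Dense R) {c : D} (hc : star c = c)
    (hc0 : c ≠ 0) {Z : ι → Matrix (Fin n) (Fin n) ℂ}
    (hZ : ∀ i, Z i * ((R i).f c * (R i).A) * (Z i)ᴴ = (R i).f c * (R i).A)
    (hZ1 : ∀ i, IsUnit (Z i + 1)) {Q : (ι → Matrix (Fin n) (Fin n) ℂ) → Prop}
    (hQ : ∀ᶠ Y in 𝓝 Z, Q Y) : ∃ l : D, l * c * star l = c ∧ Q fun i => (R i).f l := by
  have hu : ∀ i, IsUnit ((R i).f c * (R i).A) := fun i => ((R i).f_unit hc0).mul (R i).unit
  choose X hX hXZ using fun i => exists_cay (hu i) (hZ i) (hZ1 i)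
  have hcont : Tendsto (fun Y : ι → Matrix (Fin n) (Fin n) ℂ =>
      fun i => cay ((R i).f c * (R i).A) (Y i)) (𝓝 X) (𝓝 Z) := by
    rw [tendsto_pi_nhds]
    intro i
    rw [← hXZ i]
    exact (cay_cont _ (hX i)).tendsto.comp ((continuous_apply i).tendsto X)
  have hdet : ∀ i, ∀ᶠ Y in 𝓝 X, (1 - skw ((R i).f c * (R i).A) (Y i)).det ≠ 0 := by
    intro i
    have h1 : Continuous fun Y : ι → Matrix (Fin n) (Fin n) ℂ =>
        (1 - skw ((R i).f c * (R i).A) (Y i)).det :=
      (continuous_const.sub ((skw_cont _).comp (continuous_apply i))).matrix_det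
    exact h1.continuousAt.eventually_ne
      ((Matrix.isUnit_iff_isUnit_det _).mp (hX i)).ne_zero
  have hall := (hcont.eventually hQ).and (eventually_all.mpr hdet)
  obtain ⟨y, hy, hy'⟩ := dense_mem hd hall
  obtain ⟨x, hx⟩ : ∃ x, x = (2 : D)⁻¹ * (y - c * star y * c⁻¹) := ⟨_, rfl⟩
  have hcom : ∀ z : D, (2 : D)⁻¹ * z = z * (2 : D)⁻¹ := fun z =>
    ((Nat.cast_commute 2 z).inv_left₀).eq
  have h2star : star (2 : D)⁻¹ = (2 : D)⁻¹ := by rw [star_inv₀, star_ofNat]
  have hsk : x * c + c * star x = 0 := by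
    have hcs : star c⁻¹ = c⁻¹ := by rw [star_inv₀, hc]
    have e1 : star x = (2 : D)⁻¹ * (star y - c⁻¹ * (y * c)) := by
      rw [hx, star_mul, h2star, ← hcom, star_sub, star_mul, star_mul, star_star, hcs, hc]
    have e2 : c * star x = (2 : D)⁻¹ * (c * star y - y * c) := by
      rw [e1, ← mul_assoc, ← hcom, mul_assoc, mul_sub, ← mul_assoc c c⁻¹, mul_inv_cancel₀ hc0,
        one_mul]
    have e3 : x * c = (2 : D)⁻¹ * (y * c - c * star y) := by
      rw [hx, mul_assoc, sub_mul, mul_assoc (c * star y), inv_mul_cancel₀ hc0, mul_one]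
    rw [e2, e3, ← mul_add]
    have e4 : y * c - c * star y + (c * star y - y * c) = 0 := by abel
    rw [e4, mul_zero]
  have hfx : ∀ i, (R i).f x = skw ((R i).f c * (R i).A) ((R i).f y) := by
    intro i
    have hA1 : (R i).A * ((R i).A)⁻¹ = 1 :=
      Matrix.mul_nonsing_inv _ ((Matrix.isUnit_iff_isUnit_det _).mp (R i).unit)
    have h2 : (R i).f (2 : D)⁻¹ = (2 : ℂ)⁻¹ • (1 : Matrix (Fin n) (Fin n) ℂ) := by
      have h3 : (R i).f 2 * (R i).f (2 : D)⁻¹ = 1 := by
        rw [← map_mul, mul_inv_cancel₀ two_ne_zero, map_one]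
      have h4 : (R i).f 2 = (2 : ℂ) • (1 : Matrix (Fin n) (Fin n) ℂ) := by
        rw [map_ofNat, two_smul]
        norm_num
      rw [h4, smul_mul_assoc, one_mul] at h3
      rw [← h3, smul_smul, inv_mul_cancel₀ two_ne_zero, one_smul]
    have h5 : (R i).f c * (R i).A * ((R i).f y)ᴴ * ((R i).f c * (R i).A)⁻¹ =
        (R i).f (c * star y * c⁻¹) := by
      have e1 : ((R i).f c * (R i).A)⁻¹ = ((R i).A)⁻¹ * (R i).f c⁻¹ := by
        apply Matrix.inv_eq_right_inv
        calc (R i).f c * (R i).A * (((R i).A)⁻¹ * (R i).f c⁻¹)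
            = (R i).f c * ((R i).A * ((R i).A)⁻¹) * (R i).f c⁻¹ := by simp only [mul_assoc]
          _ = 1 := by rw [hA1, mul_one, ← map_mul, mul_inv_cancel₀ hc0, map_one]
      rw [e1, map_mul, map_mul]
      calc (R i).f c * (R i).A * ((R i).f y)ᴴ * (((R i).A)⁻¹ * (R i).f c⁻¹)
          = (R i).f c * ((R i).A * ((R i).f y)ᴴ) * ((R i).A)⁻¹ * (R i).f c⁻¹ := by
            simp only [mul_assoc]
        _ = (R i).f c * (R i).f (star y) * ((R i).A * ((R i).A)⁻¹) * (R i).f c⁻¹ := by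
            rw [← (R i).star_f]; simp only [mul_assoc]
        _ = _ := by rw [hA1, mul_one]
    rw [hx, map_mul, h2, map_sub, skw, h5, smul_mul_assoc, one_mul]
  have h1x : (1 : D) - x ≠ 0 := by
    intro h0
    obtain ⟨i⟩ := ‹Nonempty ι›
    apply hy' i
    rw [← hfx i, ← map_one (R i).f, ← map_sub, h0, map_zero]
    have : Nonempty (Fin n) := ⟨⟨0, hn⟩⟩
    exact Matrix.det_zero
  refine ⟨(1 + x) * (1 - x)⁻¹, ?_, ?_⟩
  · -- the Cayley transform
    have hsx : star (1 - x) ≠ 0 := star_ne_zero.mpr h1x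
    have e1 : star (1 - x) = 1 - star x := by rw [star_sub, star_one]
    have e2 : star (1 + x) = 1 + star x := by rw [star_add, star_one]
    have hcx : c * star x = -(x * c) := eq_neg_of_add_eq_zero_right hsk
    have hmain : (1 - x)⁻¹ * ((1 + x) * c * star (1 + x)) * (star (1 - x))⁻¹ = c := by
      have e3 : (1 + x) * c * star (1 + x) = (1 - x) * c * star (1 - x) := by
        rw [e1, e2]
        have e5 : (1 + x) * c * (1 + star x) - (1 - x) * c * (1 - star x) =
            (x * c + c * star x) + (x * c + c * star x) := by noncomm_ring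
        rw [← sub_eq_zero, e5, hsk, add_zero]
      rw [e3]
      calc (1 - x)⁻¹ * ((1 - x) * c * star (1 - x)) * (star (1 - x))⁻¹
          = ((1 - x)⁻¹ * (1 - x)) * c * (star (1 - x) * (star (1 - x))⁻¹) := by
            simp only [mul_assoc]
        _ = c := by rw [inv_mul_cancel₀ h1x, one_mul, mul_inv_cancel₀ hsx, mul_one]
    have hcomm : (1 + x) * (1 - x)⁻¹ = (1 - x)⁻¹ * (1 + x) := by
      have e5 : (1 - x) * (1 + x) = (1 + x) * (1 - x) := by noncomm_ring
      calc (1 + x) * (1 - x)⁻¹ = (1 - x)⁻¹ * ((1 - x) * (1 + x)) * (1 - x)⁻¹ := by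
            rw [inv_mul_cancel_left₀ h1x]
        _ = (1 - x)⁻¹ * (1 + x) * ((1 - x) * (1 - x)⁻¹) := by rw [e5]; simp only [mul_assoc]
        _ = _ := by rw [mul_inv_cancel₀ h1x, mul_one]
    rw [hcomm, star_mul, star_inv₀]
    calc (1 - x)⁻¹ * (1 + x) * c * (star (1 + x) * (star (1 - x))⁻¹)
        = (1 - x)⁻¹ * ((1 + x) * c * star (1 + x)) * (star (1 - x))⁻¹ := by
          simp only [mul_assoc]
      _ = c := hmain
  · have e : (fun i => (R i).f ((1 + x) * (1 - x)⁻¹)) =
        fun i => cay ((R i).f c * (R i).A) ((R i).f y) := by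
      funext i
      have h1 : (1 - (R i).f x) * (R i).f (1 - x)⁻¹ = 1 := by
        have h3 : (1 : Matrix (Fin n) (Fin n) ℂ) - (R i).f x = (R i).f (1 - x) := by
          rw [map_sub, map_one]
        rw [h3, ← map_mul, mul_inv_cancel₀ h1x, map_one]
      have h2 : (1 - (R i).f x)⁻¹ = (R i).f (1 - x)⁻¹ := Matrix.inv_eq_right_inv h1
      unfold cay
      rw [map_mul, map_add, map_one, ← hfx i, h2]
    rw [e]
    exact hy

variable [StarModule K D] [FiniteDimensional K D] [CharZero K]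

/-- An element of a division algebra is diagonalizable at all places. -/
theorem exists_split (R : RData K D n) (t : D) :
    ∃ S : Finset ℂ, Polynomial.aeval (R.f t) (∏ l ∈ S, (Polynomial.X - Polynomial.C l)) = 0 := by
  classical
  have hint : IsIntegral K t := IsIntegral.of_finite K t
  obtain ⟨p, hp⟩ : ∃ p, p = (minpoly K t).map R.s := ⟨_, rfl⟩
  have hp0 : p.Monic := by rw [hp]; exact (minpoly.monic hint).map _
  have hsep : p.Separable := by
    rw [hp]
    exact ((minpoly.irreducible hint).separable).map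
  refine ⟨p.roots.toFinset, ?_⟩
  have h1 : (∏ l ∈ p.roots.toFinset, (Polynomial.X - Polynomial.C l)) = p := by
    have h2 := (IsAlgClosed.splits p).eq_prod_roots_of_monic hp0
    conv_rhs => rw [h2]
    rw [Finset.prod, Multiset.toFinset_val, Multiset.dedup_eq_self.mpr
      (Polynomial.nodup_roots hsep)]
  rw [h1, hp]
  have h3 : ∀ q : Polynomial K, Polynomial.aeval (R.f t) (q.map R.s) =
      R.f (Polynomial.aeval t q) := by
    intro q
    induction q using Polynomial.induction_on' with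
    | add p q hp hq => rw [Polynomial.map_add, map_add, hp, hq, map_add, map_add]
    | monomial m a =>
      rw [Polynomial.map_monomial, Polynomial.aeval_monomial, Polynomial.aeval_monomial, map_mul,
        map_pow, R.hf]
      rfl
  rw [h3, minpoly.aeval, map_zero]

/-- **The unitary group of a rank one form is generated by its elements close to the
identity.** -/
theorem near_gen (hn : 0 < n) (hd : RP.Dense R) {c : D} (hc : star c = c) (hc0 : c ≠ 0)
    {P : Set D} (hmul : ∀ x ∈ P, ∀ y ∈ P, x * y ∈ P) {ε : ℝ} (hε : 0 < ε)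
    (hP : ∀ t : D, t * c * star t = c → (∀ i a b, ‖((R i).f t - 1) a b‖ < ε) → t ∈ P) :
    ∀ t : D, t * c * star t = c → t ∈ P := by
  intro t ht
  rcases isEmpty_or_nonempty ι with hι | hι
  · exact hP t ht fun i => (hι.false i).elim
  have ht0 : t ≠ 0 := by
    rintro rfl
    rw [zero_mul, zero_mul] at ht
    exact hc0 ht.symm
  choose S hS using fun i => exists_split (R i) t
  choose Rt hRt hRp hRlim using fun i => exists_root (hS i) ((R i).f_unit ht0) (isom_of (R := R i) ht)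
  have hlim : Tendsto (fun N => fun i => Rt i N) atTop (𝓝 (fun _ => 1)) :=
    tendsto_pi_nhds.mpr hRlim
  -- a root close to the identity
  have hopen : ∀ᶠ Y : ι → Matrix (Fin n) (Fin n) ℂ in 𝓝 (fun _ => 1),
      (∀ i, IsUnit (Y i + 1)) ∧ ∀ i a b, ‖(Y i - 1) a b‖ < ε := by
    refine (eventually_all.mpr fun i => ?_).and (eventually_all.mpr fun i =>
      eventually_all.mpr fun a => eventually_all.mpr fun b => ?_)
    · have h1 : Continuous fun Y : ι → Matrix (Fin n) (Fin n) ℂ => (Y i + 1).det :=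
        ((continuous_apply i).add continuous_const).matrix_det
      have h2 : ((1 : Matrix (Fin n) (Fin n) ℂ) + 1).det ≠ 0 := by
        have h3 : (1 : Matrix (Fin n) (Fin n) ℂ) + 1 = (2 : ℂ) • 1 := by rw [two_smul]
        rw [h3, Matrix.det_smul, Matrix.det_one, mul_one]
        exact pow_ne_zero _ two_ne_zero
      filter_upwards [h1.continuousAt.eventually_ne h2] with Y hY
      exact (Matrix.isUnit_iff_isUnit_det _).mpr hY.isUnit
    · have h1 : Continuous fun Y : ι → Matrix (Fin n) (Fin n) ℂ => ‖(Y i - 1) a b‖ :=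
        ((((continuous_apply i).sub continuous_const).matrix_elem a b)).norm
      have h2 := h1.continuousAt (x := fun _ => 1)
      refine h2.eventually_lt continuousAt_const ?_
      simpa using hε
  obtain ⟨N, hN, hN0⟩ := ((hlim.eventually hopen).and (eventually_ge_atTop 1)).exists
  have hopen' : ∀ᶠ Y : ι → Matrix (Fin n) (Fin n) ℂ in 𝓝 (fun i => Rt i N),
      (∀ i a b, ‖(Y i - 1) a b‖ < ε) ∧
        ∀ i a b, ‖((R i).f t * ((Y i)⁻¹) ^ N - 1) a b‖ < ε := by
    refine Eventually.and ?_ ?_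
    · refine eventually_all.mpr fun i => eventually_all.mpr fun a => eventually_all.mpr fun b => ?_
      have h1 : Continuous fun Y : ι → Matrix (Fin n) (Fin n) ℂ => ‖(Y i - 1) a b‖ :=
        ((((continuous_apply i).sub continuous_const).matrix_elem a b)).norm
      exact (h1.continuousAt (x := fun i => Rt i N)).eventually_lt continuousAt_const
        (hN.2 i a b)
    · refine eventually_all.mpr fun i => eventually_all.mpr fun a => eventually_all.mpr fun b => ?_
      have hu : IsUnit (Rt i N) := by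
        have h1 := hRp i N (by omega)
        have h2 := (R i).f_unit ht0
        rw [← h1] at h2
        exact (isUnit_pow_iff (by omega)).mp h2
      have h3 : ContinuousAt (fun Y : ι → Matrix (Fin n) (Fin n) ℂ => (Y i)⁻¹)
          (fun i => Rt i N) :=
        ContinuousAt.comp (f := fun Y : ι → Matrix (Fin n) (Fin n) ℂ => Y i)
          (g := fun Y : Matrix (Fin n) (Fin n) ℂ => Y⁻¹) (inv_cont hu)
          (continuous_apply i).continuousAt
      have h4 : ContinuousAt (fun Y : ι → Matrix (Fin n) (Fin n) ℂ =>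
          (R i).f t * ((Y i)⁻¹) ^ N - 1) (fun i => Rt i N) :=
        (continuousAt_const.mul (h3.pow N)).sub continuousAt_const
      have h5 : ContinuousAt (fun Y : ι → Matrix (Fin n) (Fin n) ℂ =>
          ‖((R i).f t * ((Y i)⁻¹) ^ N - 1) a b‖) (fun i => Rt i N) := by
        have h6 : Continuous fun M : Matrix (Fin n) (Fin n) ℂ => ‖M a b‖ :=
          (continuous_id.matrix_elem a b).norm
        exact ContinuousAt.comp (f := fun Y : ι → Matrix (Fin n) (Fin n) ℂ =>
          (R i).f t * ((Y i)⁻¹) ^ N - 1) (g := fun M : Matrix (Fin n) (Fin n) ℂ => ‖M a b‖)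
          h6.continuousAt h4
      refine h5.eventually_lt continuousAt_const ?_
      have h7 : (R i).f t * ((Rt i N)⁻¹) ^ N = 1 := by
        have h8 : (R i).f t = Rt i N ^ N := (hRp i N (by omega)).symm
        have h9 : Rt i N * (Rt i N)⁻¹ = 1 :=
          Matrix.mul_nonsing_inv _ ((Matrix.isUnit_iff_isUnit_det _).mp hu)
        have h10 : Commute (Rt i N) (Rt i N)⁻¹ := by
          have h11 : (Rt i N)⁻¹ * Rt i N = 1 :=
            Matrix.nonsing_inv_mul _ ((Matrix.isUnit_iff_isUnit_det _).mp hu)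
          exact h9.trans h11.symm
        rw [h8, ← h10.mul_pow, h9, one_pow]
      rw [h7, sub_self, Matrix.zero_apply, norm_zero]
      exact hε
  obtain ⟨l, hl, hl1, hl2⟩ := cay_dense hn hd hc hc0 (fun i => hRt i N) hN.1 hopen'
  have hl0 : l ≠ 0 := by
    rintro rfl
    rw [zero_mul, zero_mul] at hl
    exact hc0 hl.symm
  have hlP : l ∈ P := hP l hl hl1
  have hpow : ∀ M : ℕ, 1 ≤ M → l ^ M ∈ P ∧ l ^ M * c * star (l ^ M) = c := by
    intro M hM
    induction M, hM using Nat.le_induction with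
    | base => rw [pow_one]; exact ⟨hlP, hl⟩
    | succ M _ ih =>
      refine ⟨by rw [pow_succ]; exact hmul _ ih.1 _ hlP, ?_⟩
      rw [pow_succ, star_mul]
      calc l ^ M * l * c * (star l * star (l ^ M)) = l ^ M * (l * c * star l) * star (l ^ M) := by
            simp only [mul_assoc]
        _ = c := by rw [hl, ih.2]
  obtain ⟨hlN, hlN'⟩ := hpow N hN0
  have hlN0 : l ^ N ≠ 0 := pow_ne_zero _ hl0
  have ht' : t * (l ^ N)⁻¹ ∈ P := by
    apply hP
    · rw [star_mul, star_inv₀]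
      have hs : star (l ^ N) ≠ 0 := star_ne_zero.mpr hlN0
      have e1 : (l ^ N)⁻¹ * c * (star (l ^ N))⁻¹ = c := by
        conv_lhs => rw [← hlN']
        calc (l ^ N)⁻¹ * (l ^ N * c * star (l ^ N)) * (star (l ^ N))⁻¹
            = ((l ^ N)⁻¹ * l ^ N) * c * (star (l ^ N) * (star (l ^ N))⁻¹) := by
              simp only [mul_assoc]
          _ = c := by rw [inv_mul_cancel₀ hlN0, one_mul, mul_inv_cancel₀ hs, mul_one]
      calc t * (l ^ N)⁻¹ * c * ((star (l ^ N))⁻¹ * star t)
          = t * ((l ^ N)⁻¹ * c * (star (l ^ N))⁻¹) * star t := by simp only [mul_assoc]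
        _ = c := by rw [e1, ht]
    · intro i a b
      have e1 : (R i).f (t * (l ^ N)⁻¹) = (R i).f t * (((R i).f l)⁻¹) ^ N := by
        have h1 : (R i).f l * (R i).f l⁻¹ = 1 := by
          rw [← map_mul, mul_inv_cancel₀ hl0, map_one]
        rw [map_mul, ← inv_pow, map_pow, ← Matrix.inv_eq_right_inv h1]
      rw [e1]
      exact hl2 i a b
  have h1 := hmul _ ht' _ hlN
  rwa [mul_assoc, inv_mul_cancel₀ hlN0, mul_one] at h1

end

end Vale.Agent.P011.U2
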