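import Vale.Agent.P011.F3.End
import Vale.Agent.P011.Three.Psi

/-!
Generation of the isometry group of an anisotropic hermitian form by the quasi-reflections in
vectors of positive length: the algebraic part.
-/

open Module

namespace Vale.Agent.P011.U2

open Vale.Agent.P011S

variable {D V : Type} [DivisionRing D] [StarRing D] [CharZero D] [AddCommGroup V] [Module D V]
  {H : AForm D V}

/-- The transformations of the line of a vector which are contained in a subgroup. -/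
def Ln (H : AForm D V) (P : Subgroup (V ≃ₗ[D] V)) (w : V) : Set D :=
  {t | ∃ g ∈ P, ∀ v, g v = v - (H.h v w * ((H.h w w)⁻¹ * (1 - t))) • w}

omit [CharZero D] in
theorem Ln_mul {P : Subgroup (V ≃ₗ[D] V)} {w : V} (hw : w ≠ 0) {t t' : D} (h : t ∈ Ln H P w)
    (h' : t' ∈ Ln H P w) : t * t' ∈ Ln H P w := by
  obtain ⟨g, hg, hgv⟩ := h
  obtain ⟨g', hg', hgv'⟩ := h'
  have hc0 := H.self_ne_zero hw
  refine ⟨g' * g, mul_mem hg' hg, fun v => ?_⟩
  rw [LinearEquiv.mul_apply, hgv', hgv, H.sub_left, H.smul_left, sub_sub, ← add_smul]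
  congr 2
  obtain ⟨X, hX⟩ : ∃ X, X = H.h v w := ⟨_, rfl⟩
  obtain ⟨c, hc⟩ : ∃ c, c = H.h w w := ⟨_, rfl⟩
  obtain ⟨u, hu⟩ : ∃ u, u = c⁻¹ := ⟨_, rfl⟩
  rw [← hX, ← hc, ← hu]
  rw [← hc] at hc0
  have hcu : c * u = 1 := by rw [hu, mul_inv_cancel₀ hc0]
  have e1 : X * (u * (1 - t)) * c * (u * (1 - t')) = X * (u * ((1 - t) * (1 - t'))) := by
    calc X * (u * (1 - t)) * c * (u * (1 - t')) = X * u * (1 - t) * (c * u) * (1 - t') := by
          simp only [mul_assoc]
      _ = _ := by rw [hcu, mul_one]; simp only [mul_assoc]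
  rw [sub_mul, e1]
  noncomm_ring

omit [CharZero D] in
/-- The transformations of the line are quasi-reflections. -/
theorem line_cond {c t : D} (hc : star c = c) (ht : t * c * star t = c) (h1 : 1 - t ≠ 0) :
    (1 - t)⁻¹ * c + star ((1 - t)⁻¹ * c) = c := by
  have h2 : star (1 - t) ≠ 0 := star_ne_zero.mpr h1
  have e : c * star (1 - t) + (1 - t) * c = (1 - t) * c * star (1 - t) := by
    rw [star_sub, star_one]
    have : (1 - t) * c * (1 - star t) = c - t * c - c * star t + t * c * star t := by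
      noncomm_ring
    rw [this, ht]
    noncomm_ring
  rw [star_mul, hc, star_inv₀]
  calc (1 - t)⁻¹ * c + c * (star (1 - t))⁻¹
      = (1 - t)⁻¹ * (c * star (1 - t)) * (star (1 - t))⁻¹
        + (1 - t)⁻¹ * ((1 - t) * c) * (star (1 - t))⁻¹ := by
        rw [mul_assoc (1 - t)⁻¹ (c * star (1 - t)), mul_assoc c, mul_inv_cancel₀ h2, mul_one,
          inv_mul_cancel_left₀ h1]
    _ = (1 - t)⁻¹ * (c * star (1 - t) + (1 - t) * c) * (star (1 - t))⁻¹ := by
        rw [mul_add, add_mul]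
    _ = c := by
        rw [e]
        simp only [mul_assoc]
        rw [mul_inv_cancel₀ h2, mul_one, inv_mul_cancel_left₀ h1]

omit [CharZero D] in
theorem qr_mem_of_Ln {P : Subgroup (V ≃ₗ[D] V)} {w : V} {z : D} (hz : z + star z = H.h w w)
    (h : ∀ t : D, t * H.h w w * star t = H.h w w → t ∈ Ln H P w) : H.qr w z hz ∈ P := by
  by_cases hw : w = 0
  · subst hw
    have : H.qr 0 z hz = 1 := by
      ext v
      rw [H.qr_apply, smul_zero, sub_zero]
      rfl
    rw [this]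
    exact one_mem _
  have hc0 := H.self_ne_zero hw
  have hz0 : z ≠ 0 := by
    rintro rfl
    rw [star_zero, add_zero] at hz
    exact hc0 hz.symm
  have hz0' : star z ≠ 0 := star_ne_zero.mpr hz0
  obtain ⟨g, hg, hgv⟩ := h (1 - H.h w w * z⁻¹) (by
    rw [star_sub, star_one, star_mul, H.star_h, star_inv₀]
    obtain ⟨c, hc⟩ : ∃ c, c = H.h w w := ⟨_, rfl⟩
    rw [← hc] at hz ⊢
    have e1 : z⁻¹ * c * (star z)⁻¹ = (star z)⁻¹ + z⁻¹ := by
      rw [← hz, mul_add, add_mul, inv_mul_cancel₀ hz0, one_mul, mul_assoc, mul_inv_cancel₀ hz0',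
        mul_one]
    calc (1 - c * z⁻¹) * c * (1 - (star z)⁻¹ * c)
        = c - c * z⁻¹ * c - c * (star z)⁻¹ * c + c * (z⁻¹ * c * (star z)⁻¹) * c := by
          noncomm_ring
      _ = c := by rw [e1]; noncomm_ring)
  have : H.qr w z hz = g := by
    ext v
    rw [hgv, H.qr_apply, sub_sub_cancel, inv_mul_cancel_left₀ hc0]
  rwa [this]

omit [CharZero D] in
theorem Ln_of_qr {P : Subgroup (V ≃ₗ[D] V)} {w : V} {t : D}
    (ht : t * H.h w w * star t = H.h w w)
    (h : ∀ (h1 : (1 - t)⁻¹ * H.h w w + star ((1 - t)⁻¹ * H.h w w) = H.h w w), t ≠ 1 → w ≠ 0 →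
      H.qr w ((1 - t)⁻¹ * H.h w w) h1 ∈ P) : t ∈ Ln H P w := by
  by_cases h1 : t = 1
  · refine ⟨1, one_mem _, fun v => ?_⟩
    rw [h1, sub_self, mul_zero, mul_zero, zero_smul, sub_zero]
    rfl
  by_cases hw : w = 0
  · refine ⟨1, one_mem _, fun v => ?_⟩
    rw [hw, smul_zero, sub_zero]
    rfl
  have h2 : 1 - t ≠ 0 := sub_ne_zero.mpr (Ne.symm h1)
  refine ⟨_, h (line_cond (H.star_h w w) ht h2) h1 hw, fun v => ?_⟩
  rw [H.qr_apply, mul_inv_rev, inv_inv]

omit [CharZero D] in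
/-- A quasi-reflection is the product of three others. -/
theorem qr_mem_three {Q : D → Prop} (hQ : ∀ x c : D, x ≠ 0 → Q c → Q (x * c * star x))
    {y₁ w : V} {z₁ z : D} (h₁ : z₁ + star z₁ = H.h y₁ y₁) (h₂ : z + star z = H.h w w)
    (h12 : H.h y₁ w = 0) (hy : y₁ ≠ 0) (hz : z ≠ 0) (hp0 : Q (H.h y₁ y₁))
    (hp1 : Q (H.h y₁ y₁ + H.h w w))
    (hp2 : Q ((z₁⁻¹ + z⁻¹) + star (z₁⁻¹ + z⁻¹))) :
    H.qr w z h₂ ∈ H.qrGp (fun c => c ≠ 0 ∧ Q c) := by
  have hy0 := H.self_ne_zero hy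
  have hz₁ : z₁ ≠ 0 := by
    rintro rfl
    rw [star_zero, add_zero] at h₁
    exact hy0 h₁.symm
  obtain ⟨t, ht⟩ : ∃ t, t = z₁ + H.h y₁ w + z := ⟨_, rfl⟩
  have ht' : t = z₁ + z := by rw [ht, h12, add_zero]
  have hl : H.h (y₁ + w) (y₁ + w) = H.h y₁ y₁ + H.h w w := by
    rw [H.add_left, H.add_right, H.add_right, h12, H.orth_symm h12, add_zero, zero_add]
  have hs : t + star t = H.h (y₁ + w) (y₁ + w) := by
    rw [hl, ← h₁, ← h₂, ht', star_add]
    abel
  have hyw : y₁ + w ≠ 0 := by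
    intro h
    have h3 : H.h y₁ (y₁ + w) = H.h y₁ y₁ := by rw [H.add_right, h12, add_zero]
    rw [h, H.zero_right] at h3
    exact hy0 h3.symm
  have hyw0 := H.self_ne_zero hyw
  have ht0 : t ≠ 0 := by
    intro h
    rw [h, star_zero, add_zero] at hs
    exact hyw0 hs.symm
  have key := Three.qr_mul_qr h₁ h₂ ht hz₁ hz ht0 hs
  have e : H.qr w z h₂ = H.qr (w - (z * t⁻¹) • (y₁ + w)) (z * t⁻¹ * z₁)
      (Three.cpl_cond h₁ h₂ ht ht0) * H.qr (y₁ + w) t hs * (H.qr y₁ z₁ h₁)⁻¹ := by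
    rw [← key, mul_inv_cancel_right]
  have hu0 : z * t⁻¹ * z₁ ≠ 0 := mul_ne_zero (mul_ne_zero hz (inv_ne_zero ht0)) hz₁
  have hui : (z * t⁻¹ * z₁)⁻¹ = z₁⁻¹ + z⁻¹ := by
    rw [mul_inv_rev, mul_inv_rev, inv_inv, ht', add_mul, mul_add, mul_inv_cancel₀ hz, mul_one,
      inv_mul_cancel_left₀ hz₁, add_comm]
  have hlen : Q (H.h (w - (z * t⁻¹) • (y₁ + w)) (w - (z * t⁻¹) • (y₁ + w))) := by
    rw [← Three.cpl_cond h₁ h₂ ht ht0]
    have h3 := hQ (z * t⁻¹ * z₁) _ hu0 hp2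
    rw [← hui] at h3
    obtain ⟨u, hu⟩ : ∃ u, u = z * t⁻¹ * z₁ := ⟨_, rfl⟩
    rw [← hu] at h3 hu0 ⊢
    have e3 : u * (u⁻¹ + star u⁻¹) * star u = u + star u := by
      rw [mul_add, mul_inv_cancel₀ hu0, add_mul, one_mul, star_inv₀, mul_assoc,
        inv_mul_cancel₀ (star_ne_zero.mpr hu0), mul_one, add_comm]
    rwa [e3] at h3
  have hw' : w - (z * t⁻¹) • (y₁ + w) ≠ 0 := by
    intro h
    have h3 : H.h (w - (z * t⁻¹) • (y₁ + w)) y₁ = -(z * t⁻¹ * H.h y₁ y₁) := by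
      rw [H.sub_left, H.smul_left, H.add_left, H.orth_symm h12, add_zero, zero_sub]
    rw [h, H.zero_left] at h3
    have h4 := neg_eq_zero.mp h3.symm
    rcases mul_eq_zero.mp h4 with h5 | h5
    · exact (mul_ne_zero hz (inv_ne_zero ht0)) h5
    · exact hy0 h5
  rw [e]
  refine mul_mem (mul_mem ?_ ?_) (inv_mem ?_)
  · exact Subgroup.subset_closure ⟨_, _, _, ⟨H.self_ne_zero hw', hlen⟩, rfl⟩
  · exact Subgroup.subset_closure ⟨_, _, _, ⟨hyw0, by rwa [hl]⟩, rfl⟩
  · exact Subgroup.subset_closure ⟨_, _, _, ⟨hy0, hp0⟩, rfl⟩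

omit [CharZero D] in
/-- The stabiliser of a vector is generated by the quasi-reflections in orthogonal vectors. -/
theorem exists_perp_qrs {P : Subgroup (V ≃ₗ[D] V)} {e : V}
    (hP : ∀ (w : V) (z : D) (hz : z + star z = H.h w w), H.h e w = 0 → H.qr w z hz ∈ P)
    {g : V ≃ₗ[D] V} (hg : g ∈ H.isom) (hge : g e = e) (k : ℕ) (b : Fin k → V) :
    ∃ q ∈ P, q ∈ H.isom ∧ q e = e ∧ ∀ i, q (b i) = g (b i) := by
  induction k with
  | zero => exact ⟨1, one_mem _, one_mem _, rfl, fun i => i.elim0⟩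
  | succ k ih =>
    obtain ⟨q, hq, hqi, hqe, hqb⟩ := ih (fun i => b i.castSucc)
    obtain ⟨x, hx⟩ : ∃ x, x = q (b (Fin.last k)) := ⟨_, rfl⟩
    obtain ⟨x', hx'⟩ : ∃ x', x' = g (b (Fin.last k)) := ⟨_, rfl⟩
    have h1 : H.h x x = H.h x' x' := by
      rw [hx, hx', H.isom_apply hqi, H.isom_apply hg]
    have h2 : H.h e (x - x') = 0 := by
      rw [H.sub_right, sub_eq_zero]
      calc H.h e x = H.h (q e) x := by rw [hqe]
        _ = H.h e (b (Fin.last k)) := by rw [hx, H.isom_apply hqi]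
        _ = H.h (g e) (g (b (Fin.last k))) := by rw [H.isom_apply hg]
        _ = _ := by rw [hge, ← hx']
    refine ⟨H.qr (x - x') (H.h x (x - x')) (H.qr_map_cond h1) * q,
      mul_mem (hP _ _ _ h2) hq, mul_mem (H.qr_mem _ _ _) hqi, ?_, ?_⟩
    · rw [LinearEquiv.mul_apply, hqe, H.qr_apply, h2, zero_mul, zero_smul, sub_zero]
    intro i
    refine Fin.lastCases ?_ (fun j => ?_) i
    · rw [LinearEquiv.mul_apply, ← hx, H.qr_map h1, hx']
    · rw [LinearEquiv.mul_apply, H.qr_apply]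
      have h2 : H.h (q (b j.castSucc)) (x - x') = 0 := by
        rw [H.sub_right, sub_eq_zero, hx, H.isom_apply hqi, hqb, hx', H.isom_apply hg]
      rw [h2, zero_mul, zero_smul, sub_zero, hqb]

omit [CharZero D] in
/-- **Generation**, abstract form. -/
theorem isom_le_of_pos [FiniteDimensional D V] {Q : D → Prop} {P : Subgroup (V ≃ₗ[D] V)}
    (hPP : H.qrGp (fun c => c ≠ 0 ∧ Q c) ≤ P) {e : V} (he : H.h e e = 1) (hpe : Q (H.h e e))
    (hP : ∀ (w : V) (z : D) (hz : z + star z = H.h w w), H.h e w = 0 → H.qr w z hz ∈ P)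
    (htr : ∀ c : D, ∃ t : D, t * star t = 1 ∧ Q (2 - t * c - star (t * c))) :
    H.isom ≤ P := by
  have hP' : ∀ {y : V} {s : D} (hs : s + star s = H.h y y), Q (H.h y y) → H.qr y s hs ∈ P := by
    intro y s hs h
    by_cases hy : y = 0
    · subst hy
      have : H.qr 0 s hs = 1 := by
        ext v
        rw [H.qr_apply, smul_zero, sub_zero]
        rfl
      rw [this]
      exact one_mem _
    exact hPP (Subgroup.subset_closure ⟨y, s, hs, ⟨H.self_ne_zero hy, h⟩, rfl⟩)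
  intro g hg
  obtain ⟨t, ht, htp⟩ := htr (H.h (g e) e)
  have h1 : H.h (t • g e) (t • g e) = H.h e e := by
    rw [H.smul_left, H.smul_right, H.isom_apply hg, he, one_mul, ht]
  have h2 : H.h (t • g e - e) (t • g e - e) =
      2 - t * H.h (g e) e - star (t * H.h (g e) e) := by
    rw [H.sub_left, H.sub_right, H.sub_right, h1, he, ← H.star_h (t • g e) e, H.smul_left,
      ← one_add_one_eq_two]
    abel
  have hr : H.qr (t • g e - e) (H.h (t • g e) (t • g e - e)) (H.qr_map_cond h1) ∈ P :=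
    hP' _ (by rw [h2]; exact htp)
  -- the element of the line
  obtain ⟨a, ha, hav⟩ : t ∈ Ln H P e := Ln_of_qr (by rw [he, mul_one, ht])
    (fun h3 _ _ => hP' _ hpe)
  have hae : a e = t • e := by
    rw [hav, he, inv_one, one_mul, one_mul, sub_smul, one_smul, sub_sub_cancel]
  have haI : a ∈ H.isom := by
    intro v w
    have hts : star t * t = 1 := by
      have h0 : t ≠ 0 := by
        rintro rfl
        rw [zero_mul] at ht
        exact zero_ne_one ht
      have h3 : star t = t⁻¹ := eq_inv_of_mul_eq_one_right ht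
      rw [h3, inv_mul_cancel₀ h0]
    rw [hav, hav, he, inv_one, one_mul, H.sub_left, H.sub_right, H.sub_right, H.smul_left,
      H.smul_left, H.smul_right, H.smul_right, he, ← H.star_h w e, star_mul,
      star_sub, star_one]
    have e1 : (1 - t) * (1 - star t) = (1 - t) + (1 - star t) := by
      have : (1 - t) * (1 - star t) = 1 - t - star t + t * star t := by noncomm_ring
      rw [this, ht]
      noncomm_ring
    have e2 : H.h v e * (1 - t) * (1 * ((1 - star t) * star (H.h w e))) =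
        H.h v e * ((1 - t) * (1 - star t)) * star (H.h w e) := by
      rw [one_mul]
      simp only [mul_assoc]
    rw [e2, e1]
    noncomm_ring
  obtain ⟨r, hrd⟩ : ∃ r, r = H.qr (t • g e - e) (H.h (t • g e) (t • g e - e))
    (H.qr_map_cond h1) := ⟨_, rfl⟩
  have hrI : r ∈ H.isom := by rw [hrd]; exact H.qr_mem _ _ _
  rw [← hrd] at hr
  have hfix : (r * g * a) e = e := by
    rw [LinearEquiv.mul_apply, LinearEquiv.mul_apply, hae, map_smul, hrd, H.qr_map h1]
  obtain ⟨q, hq, -, -, hqb⟩ := exists_perp_qrs hP (mul_mem (mul_mem hrI hg) haI) hfix _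
    (Module.finBasis D V)
  have h5 : q = r * g * a := (Module.finBasis D V).ext' hqb
  have h6 : g = r⁻¹ * q * a⁻¹ := by rw [h5]; group
  rw [h6]
  exact mul_mem (mul_mem (inv_mem hr) hq) (inv_mem ha)

end Vale.Agent.P011.U2
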