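import Vale.Agent.P011.U2.Gen
import Vale.Agent.P011.U2.Near
import Vale.Agent.P011.Three.Fin
import Vale.Agent.P011.ExtF.Conv

/-!
Generation of the isometry group of an anisotropic hermitian form by the quasi-reflections in
vectors of positive length.
-/

open Matrix Module Filter Topology
open scoped ComplexOrder

namespace Vale.Agent.P011.U2

open Vale.Agent.P011S Vale.Agent.P011.RP Vale.Agent.P011.ExtF Vale.Agent.P011.Two.Hi
open Vale.Agent.P011.Three

section pos

variable {K D : Type} [Field K] [StarRing K] [DivisionRing D] [StarRing D] [Algebra K D] {n : ℕ}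

theorem posAt_iff_acc (R : RData K D n) (z : D) :
    R.PosAt (z + star z) ↔ Acc (R.f z * R.A) := by
  unfold RData.PosAt ExtF.Acc
  rw [map_add, add_mul, R.star_f, conjTranspose_mul, R.hA]

theorem posAt_conj (R : RData K D n) {x c : D} (hx : x ≠ 0) (h : R.PosAt c) :
    R.PosAt (x * c * star x) := by
  unfold RData.PosAt at *
  have e : R.f (x * c * star x) * R.A = R.f x * (R.f c * R.A) * (R.f x)ᴴ := by
    rw [map_mul, map_mul, mul_assoc _ _ R.A, R.star_f]
    simp only [mul_assoc]
  rw [e]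
  exact (Matrix.IsUnit.posDef_star_right_conjugate_iff
    ((isUnit_iff_ne_zero.mpr hx).map R.f)).mpr h

theorem acc_nat_mul (R : RData K D n) {N : ℕ} (x : D) :
    R.f ((N : D) * x) * R.A = ((N : ℝ) : ℂ) • (R.f x * R.A) := by
  rw [map_mul, map_natCast, Complex.ofReal_natCast, Nat.cast_smul_eq_nsmul, nsmul_eq_mul,
    mul_assoc]

/-- Large numbers dominate. -/
theorem acc_large (R : RData K D n) (hA : R.A.PosDef) (x : D) :
    ∀ᶠ N : ℕ in atTop, Acc (R.f ((N : D) + x) * R.A) := by
  have h1 : ∀ᶠ s : ℝ in 𝓝 0, Acc (R.A + (s : ℂ) • (R.f x * R.A)) := by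
    refine acc_eventually (F := fun s : ℝ => R.A + (s : ℂ) • (R.f x * R.A)) (fun a b => ?_) ?_
    · apply Continuous.continuousAt
      simp only [Matrix.add_apply, Matrix.smul_apply, smul_eq_mul]
      fun_prop
    · simp only [Complex.ofReal_zero, zero_smul, add_zero]
      exact acc_posDef hA
  have h2 : ∀ᶠ N : ℕ in atTop, Acc (R.A + (((1 / (N : ℝ) : ℝ)) : ℂ) • (R.f x * R.A)) :=
    tendsto_one_div_atTop_nhds_zero_nat.eventually h1
  filter_upwards [h2, eventually_gt_atTop 0] with N hN hN0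
  have hNr : (0 : ℝ) < N := by exact_mod_cast hN0
  have h3 := hN.smul hNr
  have e : ((N : ℝ) : ℂ) • (R.A + (((1 / (N : ℝ) : ℝ)) : ℂ) • (R.f x * R.A)) =
      R.f ((N : D) + x) * R.A := by
    rw [smul_add, smul_smul, ← Complex.ofReal_mul, mul_one_div_cancel hNr.ne',
      Complex.ofReal_one, one_smul, map_add, add_mul]
    congr 1
    have h4 := acc_nat_mul R (N := N) (1 : D)
    rw [mul_one, map_one, one_mul] at h4
    exact h4.symm
  rwa [e] at h3

theorem acc_inv_nat (R : RData K D n) (hA : R.A.PosDef) [CharZero D] {N : ℕ} (hN : 0 < N) :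
    Acc (R.f ((N : D)⁻¹) * R.A) := by
  have hNr : (0 : ℝ) < N := by exact_mod_cast hN
  have h1 := acc_nat_mul R (N := N) ((N : D)⁻¹)
  rw [mul_inv_cancel₀ (Nat.cast_ne_zero.mpr hN.ne'), map_one, one_mul] at h1
  have h2 : (((1 / (N : ℝ)) : ℝ) : ℂ) • R.A = (((1 / (N : ℝ)) : ℝ) : ℂ) •
      (((N : ℝ) : ℂ) • (R.f ((N : D)⁻¹) * R.A)) := congrArg _ h1
  rw [smul_smul, ← Complex.ofReal_mul, one_div_mul_cancel hNr.ne', Complex.ofReal_one,
    one_smul] at h2
  rw [← h2]
  exact (acc_posDef hA).smul (by positivity)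

end pos

section gen

variable {K D : Type} [Field K] [StarRing K] [DivisionRing D] [StarRing D] [Algebra K D]
  [StarModule K D] [FiniteDimensional K D] [CharZero D] [CharZero K] {n : ℕ} {ι : Type}
  [Fintype ι]
  {R : ι → RData K D n} {V : Type} [AddCommGroup V] [Module D V] {H : AForm D V}

theorem perp_Ln (hn : 0 < n) (hd : RP.Dense R) (hA : ∀ i, (R i).A.PosDef) {e w : V} (he : H.h e e = 1)
    (hew : H.h e w = 0) (hw : w ≠ 0) : ∀ t, t * H.h w w * star t = H.h w w →
      t ∈ Ln H (H.qrGp (fun c => c ≠ 0 ∧ star c = c ∧ ∀ i, (R i).PosAt c)) w := by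
  have hc0 := H.self_ne_zero hw
  -- a large number
  have h1 : ∀ᶠ N : ℕ in atTop, ∀ i, Acc ((R i).f ((N : D) + H.h w w / 2) * (R i).A) :=
    Filter.eventually_all.mpr fun i => acc_large (R i) (hA i) _
  obtain ⟨M₀, hM₀⟩ := Filter.eventually_atTop.mp h1
  obtain ⟨M, hM⟩ : ∃ M, M = M₀ + 1 := ⟨_, rfl⟩
  obtain ⟨L, hL⟩ : ∃ L, L = 2 * M * M := ⟨_, rfl⟩
  have hM0 : 0 < M := by omega
  have hLM : M₀ ≤ L := by
    have : M ≤ 2 * M * M := by nlinarith
    omega
  have hL0 : 0 < L := by
    rw [hL]; positivity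
  have hL1 := hM₀ L hLM
  have hLD : (L : D) + (L : D) = ((2 * M : ℕ) : D) * ((2 * M : ℕ) : D) := by
    rw [← Nat.cast_add, ← Nat.cast_mul]
    congr 1
    rw [hL]; ring
  -- closeness
  have h2 : ∀ i, ∃ η : ℝ, 0 < η ∧ ∀ N : Matrix (Fin n) (Fin n) ℂ,
      (∀ a b, ‖N a b - ((R i).f ((L : D)⁻¹) * (R i).A) a b‖ < η) → Acc N := fun i =>
    (acc_inv_nat (R i) (hA i) hL0).near
  choose η hη hηN using h2
  obtain ⟨ε, hε, hεη⟩ : ∃ ε : ℝ, 0 < ε ∧ ∀ i, ε ≤ η i := by
    rcases isEmpty_or_nonempty ι with hι | hι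
    · exact ⟨1, one_pos, fun i => (hι.false i).elim⟩
    · obtain ⟨i0, hi0⟩ := Finite.exists_min η
      exact ⟨η i0, hη i0, hi0⟩
  obtain ⟨B, hBM0, hB⟩ := exists_bound (fun i => -(R i).f ((H.h w w)⁻¹)) (fun i => (R i).A)
  refine near_gen hn hd (H.star_h w w) hc0 (fun x hx y hy => Ln_mul hw hx hy)
    (ε := ε / (n * n * B + 1)) (by positivity) ?_
  intro t ht htn
  refine Ln_of_qr ht fun h3 ht1 _ => ?_
  have ht2 : (1 : D) - t ≠ 0 := sub_ne_zero.mpr (Ne.symm ht1)
  refine qr_mem_three (Q := fun c => star c = c ∧ ∀ i, (R i).PosAt c) ?_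
    (y₁ := ((2 * M : ℕ) : D) • e) (z₁ := (L : D)) ?_ h3 ?_ ?_ ?_ ?_ ?_ ?_
  · intro x c hx hc
    refine ⟨?_, fun i => posAt_conj (R i) hx (hc.2 i)⟩
    rw [star_mul, star_mul, star_star, hc.1, mul_assoc]
  · rw [H.smul_left, H.smul_right, he, one_mul, star_natCast, star_natCast, hLD]
  · rw [H.smul_left, hew, mul_zero]
  · intro h
    have h4 : H.h (((2 * M : ℕ) : D) • e) e = ((2 * M : ℕ) : D) := by
      rw [H.smul_left, he, mul_one]
    rw [h, H.zero_left] at h4
    have : (2 * M : ℕ) ≠ 0 := by omega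
    exact (Nat.cast_ne_zero.mpr this) h4.symm
  · exact mul_ne_zero (inv_ne_zero ht2) hc0
  · rw [H.smul_left, H.smul_right, he, one_mul, star_natCast, ← hLD]
    refine ⟨by rw [star_add, star_natCast], fun i => ?_⟩
    have h4 : (L : D) + (L : D) = (L : D) + star (L : D) := by rw [star_natCast]
    rw [h4, posAt_iff_acc]
    have h5 := acc_nat_mul (R i) (N := L) (1 : D)
    rw [mul_one, map_one, one_mul] at h5
    rw [h5]
    exact (acc_posDef (hA i)).smul (by exact_mod_cast hL0)
  · rw [H.smul_left, H.smul_right, he, one_mul, star_natCast, ← hLD]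
    have h4 : (L : D) + (L : D) + H.h w w =
        ((L : D) + H.h w w / 2) + star ((L : D) + H.h w w / 2) := by
      rw [star_add, star_natCast]
      have := H.refl_cond w
      calc (L : D) + L + H.h w w = L + L + (H.h w w / 2 + star (H.h w w / 2)) := by rw [this]
        _ = _ := by abel
    rw [h4]
    refine ⟨by rw [star_add, star_star, add_comm], fun i => ?_⟩
    rw [posAt_iff_acc]
    exact hL1 i
  · refine ⟨by rw [star_add, star_star, add_comm], fun i => ?_⟩
    rw [posAt_iff_acc, _root_.mul_inv_rev, inv_inv]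
    apply hηN i
    intro a b
    have e1 : (R i).f ((L : D)⁻¹ + (H.h w w)⁻¹ * (1 - t)) * (R i).A -
        (R i).f ((L : D)⁻¹) * (R i).A = -(R i).f ((H.h w w)⁻¹) * ((R i).f t - 1) * (R i).A := by
      rw [map_add, map_mul, map_sub, map_one]
      noncomm_ring
    have e2 := congrFun (congrFun e1 a) b
    rw [Matrix.sub_apply] at e2
    rw [e2]
    refine lt_of_lt_of_le ?_ (hεη i)
    refine near_transport hBM0 (hB i) hε (fun a b => ?_) a b
    have := htn i a b
    rwa [Matrix.sub_apply] at this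

end gen

section main

variable {K D : Type} [Field K] [NumberField K] [StarRing K] [DivisionRing D] [StarRing D]
  [Algebra K D] [StarModule K D] [FiniteDimensional K D] [Algebra.IsCentral K D] {n m : ℕ}

omit [StarModule K D] [FiniteDimensional K D] [Algebra.IsCentral K D] in
/-- Multiplication by a unitary element makes an element negative. -/
theorem exists_turn {ι : Type} [Fintype ι] {R : ι → RData K D n} (hd : RP.Dense R)
    (hA : ∀ i, (R i).A.PosDef) (c : D) :
    ∃ t : D, t * star t = 1 ∧ star (2 - t * c - star (t * c)) = 2 - t * c - star (t * c) ∧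
      ∀ i, (R i).PosAt (2 - t * c - star (t * c)) := by
  have hchar : CharZero D := charZero_of_injective_algebraMap (algebraMap K D).injective
  have hst : ∀ t : D, star (2 - t * c - star (t * c)) = 2 - t * c - star (t * c) := by
    intro t
    have h2 : star (2 : D) = 2 := by
      rw [← one_add_one_eq_two, star_add, star_one]
    rw [star_sub, star_sub, star_star, h2]
    abel
  have hpos : ∀ (t : D) (i : ι), Acc ((R i).f (-(t * c)) * (R i).A) →
      (R i).PosAt (2 - t * c - star (t * c)) := by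
    intro t i h
    have h4 : 2 - t * c - star (t * c) = (1 + -(t * c)) + star (1 + -(t * c)) := by
      rw [star_add, star_one, star_neg, ← one_add_one_eq_two]
      abel
    rw [h4, posAt_iff_acc, map_add, add_mul, map_one, one_mul]
    exact (acc_posDef (hA i)).add h
  by_cases hc : c = 0
  · refine ⟨1, by rw [star_one, mul_one], hst 1, fun i => ?_⟩
    have h4 : (2 : D) - 1 * c - star (1 * c) = 1 + star 1 := by
      rw [hc, mul_zero, star_zero, sub_zero, sub_zero, star_one, one_add_one_eq_two]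
    rw [h4, posAt_iff_acc, map_one, one_mul]
    exact acc_posDef (hA i)
  · obtain ⟨G, hG, -⟩ := exists_fam R hd hA
    obtain ⟨t, ht, htX⟩ := Fam.exists_rep (G := G) (neg_ne_zero.mpr hc)
    refine ⟨star t, unit_star ht, hst _, fun i => hpos _ _ ?_⟩
    have h5 := (hG i _).mp (htX.2 i)
    rw [posAt_iff_acc] at h5
    rwa [mul_neg] at h5

/-- **Generation** of the isometry group by the quasi-reflections in positive vectors. -/
theorem isom_le_qrGp (hK : ∃ k : K, star k ≠ k) (hn : 0 < n) (hdeg : finrank K D = n ^ 2)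
    {ι : Type} [Fintype ι] {R : ι → RData K D n} (hc : Complete R) (hd : RP.Dense R)
    (hA : ∀ i, (R i).A.PosDef) (hm : 2 ≤ m) {H : Matrix (Fin m) (Fin m) D}
    (hH : IsAnisotropicForm H) (hH1 : ∀ i, PosDim (R i) H n) :
    (rowA H hH).isom ≤
      (rowA H hH).qrGp (fun c => c ≠ 0 ∧ star c = c ∧ ∀ i, (R i).PosAt c) := by
  have hchar : CharZero D := charZero_of_injective_algebraMap (algebraMap K D).injective
  obtain ⟨e, he⟩ := exists_unit hK hn hdeg hc hd hm hA hH hH1
  refine isom_le_of_pos (Q := fun c => star c = c ∧ ∀ i, (R i).PosAt c) le_rfl he ?_ ?_ ?_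
  · rw [he]
    refine ⟨star_one D, fun i => ?_⟩
    unfold RData.PosAt
    rw [map_one, one_mul]
    exact hA i
  · intro w z hz hew
    by_cases hw : w = 0
    · subst hw
      have : (rowA H hH).qr 0 z hz = 1 := by
        ext1 v
        rw [AForm.qr_apply, smul_zero, sub_zero]
        rfl
      rw [this]
      exact one_mem _
    · exact qr_mem_of_Ln hz (perp_Ln hn hd hA he hew hw)
  · intro c
    obtain ⟨t, h1, h2, h3⟩ := exists_turn hd hA c
    exact ⟨t, h1, h2, h3⟩

end main

end Vale.Agent.P011.U2
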