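import Vale.Agent.P011.U2.GenPos
import Vale.Agent.P011.Three.Comb

/-!
Characters of the isometry group of an anisotropic hermitian form of rank at least two kill the
isometries of reduced norm one.
-/

open Matrix Module
open scoped ComplexOrder

set_option linter.unusedSectionVars false

namespace Vale.Agent.P011.U2

open Vale.Agent.P011S Vale.Agent.P011.RP Vale.Agent.P011.Two.Hi Vale.Agent.P011.Two
open Vale.Agent.P011.Three

variable {K D : Type} [Field K] [NumberField K] [StarRing K] [DivisionRing D] [StarRing D]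
  [Algebra K D] [StarModule K D] [FiniteDimensional K D] [Algebra.IsCentral K D] {n m : ℕ}

theorem re_cay {t : D} (ht : t * star t = 1) (ht1 : 1 + t ≠ 0) :
    (1 + t)⁻¹ + star (1 + t)⁻¹ = 1 := by
  have hs : 1 + star t ≠ 0 := by
    intro h
    apply ht1
    have := congrArg star h
    rwa [star_add, star_one, star_star, star_zero] at this
  rw [star_inv₀, star_add, star_one]
  apply mul_left_cancel₀ ht1
  apply mul_right_cancel₀ hs
  have e1 : (1 + t) * ((1 + t)⁻¹ + (1 + star t)⁻¹) * (1 + star t) =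
      (1 + t) * (1 + t)⁻¹ * (1 + star t) + (1 + t) * ((1 + star t)⁻¹ * (1 + star t)) := by
    noncomm_ring
  rw [e1, mul_inv_cancel₀ ht1, inv_mul_cancel₀ hs, mul_one, one_mul]
  calc 1 + star t + (1 + t) = 1 + t + star t + 1 := by abel
    _ = 1 + t + star t + t * star t := by rw [ht]
    _ = _ := by noncomm_ring

theorem posAt_one {R : RData K D n} (hA : R.A.PosDef) : R.PosAt (1 : D) := by
  unfold RData.PosAt
  rw [map_one, one_mul]
  exact hA

/-- The homomorphism attached to a character of the isometry group. -/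
theorem exists_F (hK : ∃ k : K, star k ≠ k) (hn : 0 < n) {ι : Type} [Fintype ι]
    {R : ι → RData K D n} (hd : RP.Dense R) (hA : ∀ i, (R i).A.PosDef) {V A : Type}
    [AddCommGroup V] [Module D V] [CommGroup A] {H : AForm D V} (χ : H.isom →* A) {e : V}
    (he : H.h e e = 1) (hB : BOn R (psi H χ)) (hD : SymOn R (psi H χ)) :
    ∃ F0 : D → A, (∀ a b : D, a ≠ 0 → b ≠ 0 → F0 (a * b) = F0 a * F0 b) ∧
      (∀ s : D, s ≠ 0 → star s = s → F0 s = 1) ∧
      (∀ z, Xc R z → F0 z = psi H χ z * (psi H χ 1)⁻¹) := by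
  have hchar : CharZero D := charZero_of_injective_algebraMap (algebraMap K D).injective
  rcases isEmpty_or_nonempty ι with hι | hι
  · have hX : ∀ z : D, z + star z ≠ 0 → Xc R z := fun z hz => ⟨hz, fun i => (hι.false i).elim⟩
    obtain ⟨F0, h1, h2, h3⟩ := Two2.exists_F0_empty (psi H χ)
      (fun z z' r hz hz' hzr hzr' => hB z z' r (hX z hz) (hX z' hz') (hX _ hzr) (hX _ hzr'))
      (fun s hs hs0 => hD s hs (hX s (by
        rw [hs, ← two_mul]
        exact mul_ne_zero two_ne_zero hs0)))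
    exact ⟨F0, h1, h3, fun z hz => h2 z hz.1⟩
  · obtain ⟨G, C, ⟨κ⟩, hpsi, hchi, hX⟩ := ExtF.exists_data hK hn R hd hA (psi H χ)
      (chi1 χ e he)
      (fun c z hc0 _ => psi_conj' χ z hc0) (fun z _ => psi_star' χ z)
      (fun z z' r hz hz' hzr hzr' => hB z z' r ⟨re_ne_zero hn hz, hz⟩
        ⟨re_ne_zero hn hz', hz'⟩ ⟨re_ne_zero hn hzr, hzr⟩ ⟨re_ne_zero hn hzr', hzr'⟩)
      (fun s t hs ht => chi1_mul χ e he hs ht) (fun s hs hs1 => psi_lin χ e he hs hs1)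
    refine ⟨C.F0, fun a b ha hb => C.F0_mul hn ha hb, fun s hs hst => ?_, fun z hz => ?_⟩
    · refine C.F0_sym (fun g hg hgs => ?_) hn κ hs hst
      rw [hpsi]
      exact hD g hgs ⟨re_ne_zero hn ((hX g).mp hg), (hX g).mp hg⟩
    · rw [C.F0_X ((hX z).mpr hz.2), ExtF.Chi.lam, hpsi]

/-- The class of the parameter one is the value at a skew element. -/
theorem exists_skew_value (hK : ∃ k : K, star k ≠ k) {ι : Type}
    {R : ι → RData K D n} (hA : ∀ i, (R i).A.PosDef) {V A : Type}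
    [AddCommGroup V] [Module D V] [CommGroup A] {H : AForm D V} (χ : H.isom →* A) {e : V}
    (he : H.h e e = 1) (hD : SymOn R (psi H χ)) {F0 : D → A}
    (hmul : ∀ a b : D, a ≠ 0 → b ≠ 0 → F0 (a * b) = F0 a * F0 b)
    (hF : ∀ z, Xc R z → F0 z = psi H χ z * (psi H χ 1)⁻¹) :
    ∃ Y : D, Y ≠ 0 ∧ star Y = -Y ∧ psi H χ 1 = F0 Y := by
  have hchar : CharZero D := charZero_of_injective_algebraMap (algebraMap K D).injective
  obtain ⟨θ, hθ0, -, hθs⟩ := Vale.Agent.P011.W.exists_skew (D := D) hK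
  obtain ⟨hm, hp⟩ := ExtF.Fam.skew_ne hθs
  obtain ⟨u, hu⟩ : ∃ u, u = ExtF.Fam.cay θ := ⟨_, rfl⟩
  have huu : u * star u = 1 := by rw [hu]; exact ExtF.Fam.cay_unit hθs
  have hnn : (-u) * star (-u) = 1 := by rw [star_neg, neg_mul_neg, huu]
  have h11 : (1 : D) * star (1 : D) = 1 := by rw [star_one, mul_one]
  have hneg1 : (-1 : D) * star (-1 : D) = 1 := by rw [star_neg, neg_mul_neg, h11]
  have h2 : (2 : D) ≠ 0 := two_ne_zero
  have e1 : 1 + u = (1 - θ)⁻¹ * 2 := by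
    have : (1 : D) + u = (1 - θ)⁻¹ * ((1 - θ) + (1 + θ)) := by
      rw [mul_add, inv_mul_cancel₀ hm, hu]
      rfl
    rw [this]
    congr 1
    rw [← one_add_one_eq_two]
    abel
  have e2 : 1 - u = (1 + u) * (-θ) := by
    have h3 : (1 : D) - u = (1 - θ)⁻¹ * ((1 - θ) - (1 + θ)) := by
      rw [mul_sub, inv_mul_cancel₀ hm, hu]
      rfl
    rw [h3, e1, mul_assoc]
    congr 1
    rw [two_mul]
    abel
  have hu1 : 1 + u ≠ 0 := by
    rw [e1]
    exact mul_ne_zero (inv_ne_zero hm) h2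
  have hu2 : 1 - u ≠ 0 := by
    rw [e2]
    exact mul_ne_zero hu1 (neg_ne_zero.mpr hθ0)
  have hu2' : 1 + -u ≠ 0 := by rwa [← sub_eq_add_neg]
  have hXu : ∀ t : D, t * star t = 1 → 1 + t ≠ 0 → Xc R (1 + t)⁻¹ := by
    intro t ht ht1
    unfold Xc XX
    rw [re_cay ht ht1]
    exact ⟨one_ne_zero, fun i => posAt_one (hA i)⟩
  have h12 : (1 : D) + 1 ≠ 0 := by rw [one_add_one_eq_two]; exact h2
  -- the value at one
  have h3 : psi H χ 1 = chi1 χ e he (-1) := by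
    rw [← psi_lin χ e he h11 h12]
    refine (hD _ ?_ (hXu 1 h11 h12)).symm
    rw [star_inv₀, star_add, star_one]
  have h4 : chi1 χ e he (-1) * chi1 χ e he (-1) = 1 := by
    rw [← chi1_mul χ e he hneg1 hneg1, neg_mul_neg, mul_one, chi1_one]
  have h5 := hF _ (hXu u huu hu1)
  have h6 := hF _ (hXu (-u) hnn hu2')
  rw [psi_lin χ e he huu hu1] at h5
  rw [psi_lin χ e he hnn hu2', neg_neg, ← sub_eq_add_neg] at h6
  have h7 : chi1 χ e he (-u) = chi1 χ e he (-1) * chi1 χ e he u := by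
    rw [← chi1_mul χ e he hneg1 huu, neg_one_mul]
  have h8 : F0 1 = 1 := by
    have h := hmul 1 1 one_ne_zero one_ne_zero
    rw [mul_one] at h
    exact left_eq_mul.mp h
  have h9 : F0 (1 - u) = (F0 (1 - u)⁻¹)⁻¹ := by
    rw [eq_inv_iff_mul_eq_one, ← hmul _ _ hu2 (inv_ne_zero hu2), mul_inv_cancel₀ hu2, h8]
  refine ⟨(1 + u)⁻¹ * (1 - u), mul_ne_zero (inv_ne_zero hu1) hu2, ?_, ?_⟩
  · rw [e2, inv_mul_cancel_left₀ hu1, star_neg, hθs]
  · rw [hmul _ _ (inv_ne_zero hu1) hu2, h9, h5, h6, h7, h3]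
    group

section isom

variable {F : Type} [Field F] [Algebra K F] (f : D →ₐ[K] Matrix (Fin n) (Fin n) F)
  {H : Matrix (Fin m) (Fin m) D} {hH : IsAnisotropicForm H}

/-- The reduced norm of a linear automorphism. -/
noncomputable def nu (g : (Fin m → D) ≃ₗ[D] (Fin m → D)) : F :=
  redNorm f (Fin m) (rm (g : (Fin m → D) →ₗ[D] (Fin m → D)))

theorem nu_mul (g g' : (Fin m → D) ≃ₗ[D] (Fin m → D)) : nu f (g * g') = nu f g * nu f g' := by
  have h1 : rm ((g * g' : (Fin m → D) ≃ₗ[D] (Fin m → D)) : (Fin m → D) →ₗ[D] (Fin m → D)) =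
      rm (g' : (Fin m → D) →ₗ[D] (Fin m → D)) * rm (g : (Fin m → D) →ₗ[D] (Fin m → D)) := by
    refine rm_eq fun x => ?_
    rw [← Matrix.vecMul_vecMul, ← rm_apply, ← rm_apply]
    rfl
  unfold nu
  rw [h1, map_mul, mul_comm]

theorem nu_one : nu f (1 : (Fin m → D) ≃ₗ[D] (Fin m → D)) = 1 := by
  have h1 : rm ((1 : (Fin m → D) ≃ₗ[D] (Fin m → D)) : (Fin m → D) →ₗ[D] (Fin m → D)) = 1 := by
    refine rm_eq fun x => ?_
    rw [Matrix.vecMul_one]
    rfl
  unfold nu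
  rw [h1, map_one]

/-- The reduced norm of an isometry supported on a line. -/
theorem nu_line (hm : 2 ≤ m) {y : Fin m → D} (hy : y ≠ 0) {t : D} (ht : t ≠ 0)
    {g : (Fin m → D) ≃ₗ[D] (Fin m → D)}
    (hg : ∀ v, g v = v - ((rowA H hH).h v y * (((rowA H hH).h y y)⁻¹ * (1 - t))) • y) :
    nu f g = (f t).det := by
  obtain ⟨Y, hP, -⟩ := exists_plane_at (H := rowA H hH) (z := y)
    (by rw [Module.finrank_fin_fun]; exact hm) hy
  have h2 : g = ex hP (dgD (Units.mk0 t ht) 1) := by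
    ext1 v
    rw [hg, ex_apply, crd_apply, dgD_apply, Hi.vec_apply, Hi.vec_apply]
    simp only [mul_one, Units.val_one, Units.val_mk0, mul_sub, sub_smul, mul_assoc]
    abel
  unfold nu
  rw [h2, redNorm_ex]
  have h3 : m2 (dgD (Units.mk0 t ht) 1) = Matrix.diagonal ![t, 1] := by
    ext i j
    fin_cases i <;> fin_cases j <;> simp [m2, dgD_apply]
  have h4 : Matrix.diagonal ![t, 1] =
      (Matrix.diagonal ![(Polynomial.X : Polynomial K), 1]).map
        ((Polynomial.aeval t : Polynomial K →ₐ[K] D) : Polynomial K →+* D) := by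
    ext i j
    fin_cases i <;> fin_cases j <;> simp
  rw [h3, h4, redNorm_map, Matrix.det_diagonal]
  simp

theorem det_ne {x : D} (hx : x ≠ 0) : (f x).det ≠ 0 :=
  (((Matrix.isUnit_iff_isUnit_det _).mp ((isUnit_iff_ne_zero.mpr hx).map f))).ne_zero

theorem det_mul' (x y : D) : (f (x * y)).det = (f x).det * (f y).det := by
  rw [map_mul, Matrix.det_mul]

/-- The value of a character on a group generated by a set. -/
theorem value_closure {D G A F : Type} [DivisionRing D] [StarRing D] [Group G] [CommGroup A]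
    [Field F] (S : Set G) (I : Subgroup G) (hSI : Subgroup.closure S ≤ I) (χ : I →* A)
    (ν : G → F) (hν : ∀ a b, ν (a * b) = ν a * ν b) (hν1 : ν 1 = 1) (dt : D → F)
    (hdt : ∀ a b, dt (a * b) = dt a * dt b) (hdt1 : dt 1 = 1) (F0 : D → A)
    (hmul : ∀ a b : D, a ≠ 0 → b ≠ 0 → F0 (a * b) = F0 a * F0 b)
    (hb : ∀ x ∈ S, ∀ hx : x ∈ I, ∃ Z : D, Z ≠ 0 ∧ dt (star Z) = ν x * dt Z ∧ χ ⟨x, hx⟩ = F0 Z) :
    ∀ g ∈ Subgroup.closure S, ∀ hg : g ∈ I,
      ∃ Z : D, Z ≠ 0 ∧ dt (star Z) = ν g * dt Z ∧ χ ⟨g, hg⟩ = F0 Z := by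
  have hF1 : F0 1 = 1 := by
    have h := hmul 1 1 one_ne_zero one_ne_zero
    rw [mul_one] at h
    exact left_eq_mul.mp h
  intro g hg'
  induction hg' using Subgroup.closure_induction with
  | mem x hx => exact hb x hx
  | one =>
    intro hg
    refine ⟨1, one_ne_zero, ?_, ?_⟩
    · rw [star_one, hν1, one_mul]
    · rw [hF1]
      exact map_one χ
  | mul x y hx hy ihx ihy =>
    intro hg
    have hxi := hSI hx
    have hyi := hSI hy
    obtain ⟨Z, hZ0, hZ1, hZ2⟩ := ihx hxi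
    obtain ⟨W, hW0, hW1, hW2⟩ := ihy hyi
    refine ⟨Z * W, mul_ne_zero hZ0 hW0, ?_, ?_⟩
    · rw [star_mul, hdt, hdt Z, hZ1, hW1, hν]
      ring
    · have h2 : (⟨x * y, hg⟩ : I) = ⟨x, hxi⟩ * ⟨y, hyi⟩ := rfl
      rw [hmul Z W hZ0 hW0, ← hZ2, ← hW2, h2, map_mul]
  | inv x hx ih =>
    intro hg
    have hxi := hSI hx
    obtain ⟨Z, hZ0, hZ1, hZ2⟩ := ih hxi
    refine ⟨Z⁻¹, inv_ne_zero hZ0, ?_, ?_⟩
    · have h1 : ν x * ν x⁻¹ = 1 := by rw [← hν, mul_inv_cancel, hν1]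
      have h2 : dt Z * dt Z⁻¹ = 1 := by
        rw [← hdt, mul_inv_cancel₀ hZ0, hdt1]
      have h3 : dt (star Z) * dt (star Z⁻¹) = 1 := by
        rw [← hdt, ← star_mul, inv_mul_cancel₀ hZ0, star_one, hdt1]
      have h4 : dt (star Z) ≠ 0 := left_ne_zero_of_mul_eq_one h3
      apply mul_left_cancel₀ h4
      rw [h3, hZ1]
      linear_combination (-1 : F) * h1 - (ν x * ν x⁻¹) * h2
    · have h1 : F0 Z * F0 Z⁻¹ = 1 := by
        rw [← hmul Z Z⁻¹ hZ0 (inv_ne_zero hZ0), mul_inv_cancel₀ hZ0, hF1]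
      have h2 : (⟨x⁻¹, hg⟩ : I) = (⟨x, hxi⟩ : I)⁻¹ := rfl
      rw [h2, map_inv, hZ2]
      exact inv_eq_of_mul_eq_one_right h1

/-- The value of a character on a quasi-reflection. -/
theorem value_qr (hm : 2 ≤ m) {A : Type} [CommGroup A] (χ : (rowA H hH).isom →* A) {F0 : D → A}
    (hmul : ∀ a b : D, a ≠ 0 → b ≠ 0 → F0 (a * b) = F0 a * F0 b) {Y : D}
    (hY0 : Y ≠ 0) (hY : star Y = -Y) (hY1 : psi (rowA H hH) χ 1 = F0 Y) {y : Fin m → D} {z : D}
    (hz : z + star z = (rowA H hH).h y y) (hy0 : (rowA H hH).h y y ≠ 0)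
    (hF : F0 z = psi (rowA H hH) χ z * (psi (rowA H hH) χ 1)⁻¹)
    (hg : (rowA H hH).qr y z hz ∈ (rowA H hH).isom) :
    ∃ Z : D, Z ≠ 0 ∧ (f (star Z)).det = nu f ((rowA H hH).qr y z hz) * (f Z).det ∧
      χ ⟨(rowA H hH).qr y z hz, hg⟩ = F0 Z := by
  have hy : y ≠ 0 := by
    rintro rfl
    exact hy0 ((rowA H hH).zero_left 0)
  have hz0 : z ≠ 0 := by
    rintro rfl
    rw [star_zero, add_zero] at hz
    exact hy0 hz.symm
  have h1 : psi (rowA H hH) χ z = F0 (z * Y) := by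
    rw [hmul z Y hz0 hY0, hF, hY1, inv_mul_cancel_right]
  have hts : -star z * z⁻¹ ≠ 0 :=
    mul_ne_zero (neg_ne_zero.mpr (star_ne_zero.mpr hz0)) (inv_ne_zero hz0)
  have h2 : nu f ((rowA H hH).qr y z hz) = (f (-star z * z⁻¹)).det := by
    refine nu_line (hH := hH) f hm hy hts fun v => ?_
    have h3 : (1 : D) - -star z * z⁻¹ = (rowA H hH).h y y * z⁻¹ := by
      rw [← hz, add_mul, mul_inv_cancel₀ hz0, neg_mul, sub_neg_eq_add]
    rw [AForm.qr_apply, h3, inv_mul_cancel_left₀ hy0]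
  refine ⟨z * Y, mul_ne_zero hz0 hY0, ?_, ?_⟩
  · rw [h2, star_mul, hY, neg_mul, ← mul_neg, det_mul', det_mul' f (-star z), det_mul' f z]
    have h3 : (f z⁻¹).det * (f z).det = 1 := by
      rw [← det_mul', inv_mul_cancel₀ hz0, map_one, Matrix.det_one]
    linear_combination (-(f Y).det * (f (-star z)).det) * h3
  · rw [← h1]
    exact (psi_eq hz).symm

/-- The value of a character on an isometry. -/
theorem exists_value (hK : ∃ k : K, star k ≠ k) (hn : 0 < n) (hdeg : finrank K D = n ^ 2)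
    {ι : Type} [Fintype ι] {R : ι → RData K D n} (hc : Complete R) (hd : RP.Dense R)
    (hA : ∀ i, (R i).A.PosDef) (hm : 2 ≤ m) (hH1 : ∀ i, PosDim (R i) H n) {A : Type}
    [CommGroup A] (χ : (rowA H hH).isom →* A) {F0 : D → A}
    (hmul : ∀ a b : D, a ≠ 0 → b ≠ 0 → F0 (a * b) = F0 a * F0 b)
    (hF : ∀ z, Xc R z → F0 z = psi (rowA H hH) χ z * (psi (rowA H hH) χ 1)⁻¹) {Y : D}
    (hY0 : Y ≠ 0) (hY : star Y = -Y) (hY1 : psi (rowA H hH) χ 1 = F0 Y)
    {g : (Fin m → D) ≃ₗ[D] (Fin m → D)} (hg : g ∈ (rowA H hH).isom) :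
    ∃ Z : D, Z ≠ 0 ∧ (f (star Z)).det = nu f g * (f Z).det ∧ χ ⟨g, hg⟩ = F0 Z := by
  have hchar : CharZero D := charZero_of_injective_algebraMap (algebraMap K D).injective
  have h1 : (rowA H hH).qrGp (fun c => c ≠ 0 ∧ star c = c ∧ ∀ i, (R i).PosAt c) ≤
      (rowA H hH).isom := AForm.qrGp_le _
  have h2 : g ∈ (rowA H hH).qrGp (fun c => c ≠ 0 ∧ star c = c ∧ ∀ i, (R i).PosAt c) :=
    isom_le_qrGp hK hn hdeg hc hd hA hm hH hH1 hg
  unfold AForm.qrGp at h1 h2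
  refine value_closure _ _ h1 χ (nu f) (nu_mul f) (nu_one f)
    (fun x => (f x).det) (det_mul' f) (by rw [map_one, Matrix.det_one]) F0 hmul ?_ g h2 hg
  rintro x ⟨y, z, hz, hyp, rfl⟩ hx
  refine value_qr f hm χ hmul hY0 hY hY1 hz hyp.1 (hF z ?_) hx
  unfold Xc XX
  rw [hz]
  exact ⟨hyp.1, hyp.2.2⟩

end isom

end Vale.Agent.P011.U2
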