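import Mathlib.LinearAlgebra.Lagrange
import Mathlib.LinearAlgebra.Matrix.Charpoly.Basic
import Mathlib.Analysis.SpecialFunctions.Complex.Log
import Mathlib.Topology.Instances.Matrix
import Mathlib.LinearAlgebra.Matrix.Hermitian

/-!
Roots of diagonalizable isometries of a complex hermitian form, close to the identity.
-/

open Matrix Polynomial Filter Topology

namespace Vale.Agent.P011.U2.Nr

variable {n : ℕ}

/-- A function of a diagonalizable matrix. -/
noncomputable def fn (S : Finset ℂ) (M : Matrix (Fin n) (Fin n) ℂ) (g : ℂ → ℂ) :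
    Matrix (Fin n) (Fin n) ℂ :=
  aeval M (Lagrange.interpolate S id g)

theorem aeval_congr {S : Finset ℂ} {M : Matrix (Fin n) (Fin n) ℂ}
    (hS : aeval M (∏ l ∈ S, (X - C l)) = 0) {p q : ℂ[X]} (h : ∀ l ∈ S, p.eval l = q.eval l) :
    aeval M p = aeval M q := by
  have h1 : (∏ l ∈ S, (X - C l)) ∣ p - q := by
    apply Finset.prod_dvd_of_coprime
    · intro a _ b _ hab
      exact Polynomial.isCoprime_X_sub_C_of_isUnit_sub (sub_ne_zero.mpr hab).isUnit
    · intro l hl
      rw [Polynomial.dvd_iff_isRoot, Polynomial.IsRoot, Polynomial.eval_sub, h l hl, sub_self]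
  obtain ⟨r, hr⟩ := h1
  have h2 : aeval M (p - q) = 0 := by rw [hr, map_mul, hS, zero_mul]
  rwa [map_sub, sub_eq_zero] at h2

theorem eval_interp (S : Finset ℂ) (g : ℂ → ℂ) {l : ℂ} (hl : l ∈ S) :
    (Lagrange.interpolate S id g).eval l = g l :=
  Lagrange.eval_interpolate_at_node g (Set.injOn_id _) hl

theorem fn_eq {S : Finset ℂ} {M : Matrix (Fin n) (Fin n) ℂ}
    (hS : aeval M (∏ l ∈ S, (X - C l)) = 0) {p : ℂ[X]} {g : ℂ → ℂ}
    (h : ∀ l ∈ S, p.eval l = g l) : fn S M g = aeval M p :=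
  aeval_congr hS fun l hl => by rw [eval_interp S g hl, h l hl]

theorem fn_one {S : Finset ℂ} {M : Matrix (Fin n) (Fin n) ℂ}
    (hS : aeval M (∏ l ∈ S, (X - C l)) = 0) : fn S M (fun _ => 1) = 1 := by
  rw [fn_eq hS (p := 1) (fun l _ => by rw [eval_one]), map_one]

theorem fn_pow {S : Finset ℂ} {M : Matrix (Fin n) (Fin n) ℂ}
    (hS : aeval M (∏ l ∈ S, (X - C l)) = 0) {g : ℂ → ℂ} {N : ℕ}
    (h : ∀ l ∈ S, g l ^ N = l) : fn S M g ^ N = M := by
  rw [fn, ← map_pow]
  have h1 : aeval M (X : ℂ[X]) = M := aeval_X M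
  conv_rhs => rw [← h1]
  exact aeval_congr hS fun l hl => by rw [eval_pow, eval_interp S g hl, h l hl, eval_X]

/-- The values of the functions converge. -/
theorem fn_tendsto {S : Finset ℂ} {M : Matrix (Fin n) (Fin n) ℂ}
    (hS : aeval M (∏ l ∈ S, (X - C l)) = 0) {g : ℕ → ℂ → ℂ}
    (h : ∀ l ∈ S, Tendsto (fun N => g N l) atTop (𝓝 1)) :
    Tendsto (fun N => fn S M (g N)) atTop (𝓝 1) := by
  have e : ∀ g : ℂ → ℂ, fn S M g = ∑ l ∈ S, g l • aeval M (Lagrange.basis S id l) := by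
    intro g
    rw [fn, Lagrange.interpolate_apply, map_sum]
    refine Finset.sum_congr rfl fun l _ => ?_
    rw [← smul_eq_C_mul, map_smul]
  have h1 := fn_one hS
  rw [e] at h1
  simp only [e]
  rw [← h1]
  refine tendsto_finsetSum _ fun l hl => ?_
  exact (h l hl).smul_const _

theorem conj_aeval (M : Matrix (Fin n) (Fin n) ℂ) (p : ℂ[X]) :
    (aeval M p)ᴴ = aeval Mᴴ (p.map (starRingEnd ℂ)) := by
  induction p using Polynomial.induction_on' with
  | add p q hp hq => rw [map_add, Matrix.conjTranspose_add, hp, hq, Polynomial.map_add, map_add]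
  | monomial m a =>
    rw [Polynomial.map_monomial, aeval_monomial, aeval_monomial, Matrix.conjTranspose_mul,
      Matrix.conjTranspose_pow]
    have h1 : ((algebraMap ℂ (Matrix (Fin n) (Fin n) ℂ)) a)ᴴ =
        (algebraMap ℂ (Matrix (Fin n) (Fin n) ℂ)) (starRingEnd ℂ a) := by
      rw [Algebra.algebraMap_eq_smul_one, Algebra.algebraMap_eq_smul_one,
        Matrix.conjTranspose_smul, Matrix.conjTranspose_one]
      rfl
    rw [h1, Algebra.commutes]

theorem aeval_inter {M M' B : Matrix (Fin n) (Fin n) ℂ} (h : B * M = M' * B) (p : ℂ[X]) :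
    B * aeval M p = aeval M' p * B := by
  induction p using Polynomial.induction_on' with
  | add p q hp hq => rw [map_add, map_add, mul_add, add_mul, hp, hq]
  | monomial m a =>
    rw [aeval_monomial, aeval_monomial]
    have h1 : ∀ m : ℕ, B * M ^ m = M' ^ m * B := by
      intro m
      induction m with
      | zero => simp
      | succ m ih => rw [pow_succ, ← mul_assoc, ih, mul_assoc, h, ← mul_assoc, ← pow_succ]
    rw [← mul_assoc, ← Algebra.commutes, mul_assoc, h1, ← mul_assoc]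

/-- A function of an isometry is an isometry. -/
theorem fn_isom {S : Finset ℂ} {M B : Matrix (Fin n) (Fin n) ℂ}
    (hS : aeval M (∏ l ∈ S, (X - C l)) = 0) (hM : IsUnit M) (h0 : ∀ l ∈ S, l ≠ 0)
    (hcl : ∀ l ∈ S, (starRingEnd ℂ l)⁻¹ ∈ S) (hB : M * B * Mᴴ = B) {g : ℂ → ℂ}
    (hg : ∀ l ∈ S, g l * starRingEnd ℂ (g (starRingEnd ℂ l)⁻¹) = 1) :
    fn S M g * B * (fn S M g)ᴴ = B := by
  obtain ⟨u, hu⟩ : ∃ u, u = Lagrange.interpolate S id (fun l : ℂ => l⁻¹) := ⟨_, rfl⟩
  have hMu : M * aeval M u = 1 := by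
    have h1 : aeval M (X * u) = aeval M (1 : ℂ[X]) := aeval_congr hS fun l hl => by
      rw [eval_mul, eval_X, hu, eval_interp S _ hl, eval_one, mul_inv_cancel₀ (h0 l hl)]
    rwa [map_mul, aeval_X, map_one] at h1
  obtain ⟨p, hp⟩ : ∃ p, p = Lagrange.interpolate S id g := ⟨_, rfl⟩
  have e1 : B * Mᴴ = aeval M u * B := by
    have h1 : aeval M u * M = 1 := mul_eq_one_comm.mp hMu
    calc B * Mᴴ = aeval M u * M * (B * Mᴴ) := by rw [h1, one_mul]
      _ = aeval M u * (M * B * Mᴴ) := by simp only [mul_assoc]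
      _ = _ := by rw [hB]
  have e2 := aeval_inter e1 (p.map (starRingEnd ℂ))
  have e3 : aeval (aeval M u) (p.map (starRingEnd ℂ)) =
      aeval M ((p.map (starRingEnd ℂ)).comp u) := by
    rw [Polynomial.aeval_comp]
  rw [fn, ← hp, conj_aeval, mul_assoc, e2, e3, ← mul_assoc, ← map_mul]
  have e4 : aeval M (p * (p.map (starRingEnd ℂ)).comp u) = aeval M (1 : ℂ[X]) := by
    refine aeval_congr hS fun l hl => ?_
    rw [eval_mul, eval_comp, eval_one]
    have h1 : p.eval l = g l := by rw [hp]; exact eval_interp S g hl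
    have h2 : u.eval l = l⁻¹ := by rw [hu]; exact eval_interp S _ hl
    have h3 : l⁻¹ = starRingEnd ℂ ((starRingEnd ℂ l)⁻¹) := by
      rw [map_inv₀, Complex.conj_conj]
    rw [h1, h2, h3, Polynomial.eval_map, Polynomial.eval₂_at_apply, hp,
      eval_interp S g (hcl l hl), hg l hl]
  rw [e4, map_one, one_mul]

/-- The principal root. -/
noncomputable def rt (N : ℕ) (l : ℂ) : ℂ := Complex.exp (Complex.log l / N)

theorem rt_pow {N : ℕ} (hN : N ≠ 0) {l : ℂ} (hl : l ≠ 0) : rt N l ^ N = l := by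
  have hN' : (N : ℂ) ≠ 0 := Nat.cast_ne_zero.mpr hN
  rw [rt, ← Complex.exp_nat_mul, mul_div_cancel₀ _ hN', Complex.exp_log hl]

theorem rt_tendsto (l : ℂ) : Tendsto (fun N : ℕ => rt N l) atTop (𝓝 1) := by
  have h1 : Tendsto (fun N : ℕ => Complex.log l / (N : ℂ)) atTop (𝓝 0) :=
    tendsto_const_div_atTop_nhds_zero_nat _
  have h2 := (Complex.continuous_exp.tendsto 0).comp h1
  rw [Complex.exp_zero] at h2
  exact h2

theorem rt_conj (N : ℕ) {l : ℂ} (hl : l ≠ 0) :
    rt N l * starRingEnd ℂ (rt N (starRingEnd ℂ l)⁻¹) = 1 := by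
  have h1 : starRingEnd ℂ (Complex.log (starRingEnd ℂ l)⁻¹) = -Complex.log l := by
    have hl' : (starRingEnd ℂ l) ≠ 0 := (_root_.map_ne_zero _).mpr hl
    by_cases h : l.arg = Real.pi
    · have h2 : (starRingEnd ℂ l).arg = Real.pi := by
        rw [Complex.arg_conj, if_pos h]
      have h3 : ((starRingEnd ℂ l)⁻¹).arg = Real.pi := by
        rw [Complex.arg_inv, if_pos h2]
      apply Complex.ext
      · rw [Complex.conj_re, Complex.log_re, Complex.neg_re, Complex.log_re, norm_inv,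
          Real.log_inv, Complex.norm_conj]
      · rw [Complex.conj_im, Complex.log_im, Complex.neg_im, Complex.log_im, h3, h]
    · have h2 : (starRingEnd ℂ l).arg = -l.arg := by
        rw [Complex.arg_conj, if_neg h]
      have h4 : (starRingEnd ℂ l).arg ≠ Real.pi := by
        rw [h2]
        intro h5
        have := Complex.neg_pi_lt_arg l
        linarith
      have h3 : ((starRingEnd ℂ l)⁻¹).arg = l.arg := by
        rw [Complex.arg_inv, if_neg h4, h2, neg_neg]
      apply Complex.ext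
      · rw [Complex.conj_re, Complex.log_re, Complex.neg_re, Complex.log_re, norm_inv,
          Real.log_inv, Complex.norm_conj]
      · rw [Complex.conj_im, Complex.log_im, Complex.neg_im, Complex.log_im, h3]
  rw [rt, rt, ← Complex.exp_conj, ← Complex.exp_add, map_div₀, h1, Complex.conj_natCast,
    neg_div, add_neg_cancel, Complex.exp_zero]

/-- **Roots of isometries.** -/
theorem exists_root {S : Finset ℂ} {M B : Matrix (Fin n) (Fin n) ℂ}
    (hS : aeval M (∏ l ∈ S, (X - C l)) = 0) (hM : IsUnit M) (hB : M * B * Mᴴ = B) :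
    ∃ Rt : ℕ → Matrix (Fin n) (Fin n) ℂ, (∀ N, Rt N * B * (Rt N)ᴴ = B) ∧
      (∀ N, N ≠ 0 → Rt N ^ N = M) ∧ Tendsto Rt atTop (𝓝 1) := by
  classical
  obtain ⟨S', hS'⟩ : ∃ S', S' = S.erase 0 ∪ (S.erase 0).image (fun l => (starRingEnd ℂ l)⁻¹) :=
    ⟨_, rfl⟩
  have h0 : ∀ l ∈ S', l ≠ 0 := by
    intro l hl
    rw [hS', Finset.mem_union, Finset.mem_image] at hl
    rcases hl with hl | ⟨a, ha, rfl⟩
    · exact (Finset.mem_erase.mp hl).1
    · exact inv_ne_zero ((_root_.map_ne_zero _).mpr (Finset.mem_erase.mp ha).1)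
  have hcl : ∀ l ∈ S', (starRingEnd ℂ l)⁻¹ ∈ S' := by
    intro l hl
    rw [hS', Finset.mem_union, Finset.mem_image] at hl ⊢
    rcases hl with hl | ⟨a, ha, rfl⟩
    · exact Or.inr ⟨l, hl, rfl⟩
    · left
      rw [map_inv₀, Complex.conj_conj, inv_inv]
      exact ha
  have hk0 : aeval M (∏ l ∈ S.erase 0, (X - C l)) = 0 := by
    by_cases h : (0 : ℂ) ∈ S
    · rw [← Finset.mul_prod_erase S _ h, map_mul, map_sub, aeval_X, C_0, map_zero, sub_zero] at hS
      exact (hM.mul_right_eq_zero).mp hS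
    · rwa [Finset.erase_eq_of_notMem h]
  have hk : aeval M (∏ l ∈ S', (X - C l)) = 0 := by
    have h1 : (∏ l ∈ S.erase 0, (X - C l)) ∣ ∏ l ∈ S', (X - C l) :=
      Finset.prod_dvd_prod_of_subset _ _ _ (by rw [hS']; exact Finset.subset_union_left)
    obtain ⟨r, hr⟩ := h1
    rw [hr, map_mul, hk0, zero_mul]
  refine ⟨fun N => fn S' M (rt N), fun N => ?_, fun N hN => ?_, ?_⟩
  · exact fn_isom hk hM h0 hcl hB fun l hl => rt_conj N (h0 l hl)
  · exact fn_pow hk fun l hl => rt_pow hN (h0 l hl)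
  · exact fn_tendsto hk fun l _ => rt_tendsto l

end Vale.Agent.P011.U2.Nr
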